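import Vale.Agent.Lib.P007.Orbit

set_option autoImplicit false

namespace Vale.Agent.P007

open MeasureTheory Topology Filter NumberField Module
open scoped Pointwise

variable {K : Type} [Field K] [NumberField K]

/-! ### Orders contain a multiple of the maximal order -/

theorem exists_mul_mem {O : Subring K} (hO : IsOrderOf O) (a : K) :
    ∃ m : ℕ, 0 < m ∧ (m : K) * a ∈ O := by
  have ha : a ∈ Submodule.span ℚ (O : Set K) := by rw [hO.2]; trivial
  induction ha using Submodule.span_induction with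
  | mem x hx => exact ⟨1, one_pos, by simpa using hx⟩
  | zero => exact ⟨1, one_pos, by simp⟩
  | add x y _ _ hx hy =>
    obtain ⟨m, hm, hmx⟩ := hx
    obtain ⟨k, hk, hky⟩ := hy
    refine ⟨m * k, Nat.mul_pos hm hk, ?_⟩
    have : ((m * k : ℕ) : K) * (x + y) = (k : K) * ((m : K) * x) + (m : K) * ((k : K) * y) := by
      push_cast; ring
    rw [this]
    exact O.add_mem (O.mul_mem (natCast_mem O k) hmx) (O.mul_mem (natCast_mem O m) hky)
  | smul q x _ hx =>
    obtain ⟨m, hm, hmx⟩ := hx
    refine ⟨m * q.den, Nat.mul_pos hm q.den_pos, ?_⟩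
    have hq : (q.den : K) * (q : K) = (q.num : K) := by
      have := Rat.den_mul_eq_num q
      exact_mod_cast congrArg (fun r : ℚ => (r : K)) this
    have : ((m * q.den : ℕ) : K) * (q • x) = (q.num : K) * ((m : K) * x) := by
      rw [Rat.smul_def]
      push_cast
      rw [← hq]
      ring
    rw [this]
    exact O.mul_mem (intCast_mem O q.num) hmx

theorem exists_conductor {O : Subring K} (hO : IsOrderOf O) :
    ∃ m : ℕ, 0 < m ∧ ∀ a : K, IsIntegral ℤ a → (m : K) * a ∈ O := by
  classical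
  let b := RingOfIntegers.basis K
  choose m hm hmO using fun i => exists_mul_mem hO ((b i : 𝓞 K) : K)
  refine ⟨∏ i, m i, Finset.prod_pos fun i _ => hm i, ?_⟩
  intro a ha
  let a' : 𝓞 K := ⟨a, ha⟩
  have h1 : a' = ∑ i, b.repr a' i • b i := (b.sum_repr a').symm
  have h2 : a = ∑ i, (b.repr a' i : K) * ((b i : 𝓞 K) : K) := by
    have := congrArg (algebraMap (𝓞 K) K) h1
    rw [map_sum] at this
    simp only [zsmul_eq_mul, map_mul, map_intCast] at this
    exact this
  rw [h2, Finset.mul_sum]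
  refine O.sum_mem fun i _ => ?_
  have h3 : ((∏ j, m j : ℕ) : K) * ((b.repr a' i : K) * ((b i : 𝓞 K) : K)) =
      ((∏ j ∈ Finset.univ.erase i, m j : ℕ) : K) * ((b.repr a' i : K) *
        ((m i : K) * ((b i : 𝓞 K) : K))) := by
    rw [← Finset.mul_prod_erase _ _ (Finset.mem_univ i)]
    push_cast
    ring
  rw [h3]
  exact O.mul_mem (natCast_mem O _) (O.mul_mem (intCast_mem O _) (hmO i))

/-- A power of a unit lies in the order. -/
theorem exists_pow_mem {O : Subring K} (hO : IsOrderOf O) :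
    ∃ k : ℕ, 0 < k ∧ ∀ ε : (𝓞 K)ˣ, (((ε ^ k : (𝓞 K)ˣ) : 𝓞 K) : K) ∈ O := by
  obtain ⟨m, hm, hmO⟩ := exists_conductor hO
  have hne : (Ideal.span {(m : 𝓞 K)}) ≠ ⊥ := by
    rw [Ne, Ideal.span_singleton_eq_bot]
    exact_mod_cast hm.ne'
  have hfin : Finite (𝓞 K ⧸ Ideal.span {(m : 𝓞 K)}) := Ideal.finiteQuotientOfFreeOfNeBot _ hne
  have hfinu : Finite (𝓞 K ⧸ Ideal.span {(m : 𝓞 K)})ˣ := inferInstance
  refine ⟨Nat.card (𝓞 K ⧸ Ideal.span {(m : 𝓞 K)})ˣ, Nat.card_pos, ?_⟩
  intro ε
  set k := Nat.card (𝓞 K ⧸ Ideal.span {(m : 𝓞 K)})ˣ with hk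
  have h1 : (Units.map (Ideal.Quotient.mk (Ideal.span {(m : 𝓞 K)})).toMonoidHom ε) ^ k = 1 :=
    pow_card_eq_one'
  rw [← map_pow] at h1
  have h2 : Ideal.Quotient.mk (Ideal.span {(m : 𝓞 K)}) ((ε ^ k : (𝓞 K)ˣ) : 𝓞 K) =
      Ideal.Quotient.mk (Ideal.span {(m : 𝓞 K)}) 1 := by
    have := congrArg Units.val h1
    simpa using this
  rw [Ideal.Quotient.eq, Ideal.mem_span_singleton'] at h2
  obtain ⟨b, hb⟩ := h2
  have h3 : (((ε ^ k : (𝓞 K)ˣ) : 𝓞 K) : K) = 1 + (m : K) * (b : K) := by
    have h4 : ((ε ^ k : (𝓞 K)ˣ) : 𝓞 K) = 1 + (m : 𝓞 K) * b := by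
      rw [mul_comm (m : 𝓞 K) b, hb]; ring
    rw [h4]
    push_cast
    ring
  rw [h3]
  exact O.add_mem O.one_mem (hmO b b.2)

/-! ### Real embeddings and infinite places -/

variable {n : ℕ}

/-- The infinite place of the real embedding `σ j`. -/
noncomputable def pl (σ : Fin n ≃ (K →+* ℝ)) (j : Fin n) : InfinitePlace K :=
  InfinitePlace.mk (Complex.ofRealHom.comp (σ j))

theorem pl_apply (σ : Fin n ≃ (K →+* ℝ)) (j : Fin n) (x : K) : pl σ j x = |σ j x| := by
  unfold pl
  rw [InfinitePlace.apply]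
  simp

theorem isReal_comp (φ : K →+* ℝ) : ComplexEmbedding.IsReal (Complex.ofRealHom.comp φ) := by
  rw [ComplexEmbedding.isReal_iff]
  ext x
  simp

theorem pl_injective (σ : Fin n ≃ (K →+* ℝ)) : Function.Injective (pl σ) := by
  intro i j hij
  have h : Complex.ofRealHom.comp (σ i) = Complex.ofRealHom.comp (σ j) := by
    rcases InfinitePlace.mk_eq_iff.mp hij with h | h
    · exact h
    · rwa [ComplexEmbedding.isReal_iff.mp (isReal_comp (σ i))] at h
  apply σ.injective
  ext x
  have := RingHom.congr_fun h x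
  simpa using this

theorem pl_bijective (σ : Fin n ≃ (K →+* ℝ)) (hn : finrank ℚ K = n) :
    Function.Bijective (pl σ) := by
  classical
  rw [Fintype.bijective_iff_injective_and_card]
  refine ⟨pl_injective σ, ?_⟩
  have h1 : Fintype.card (Fin n) ≤ Fintype.card (InfinitePlace K) :=
    Fintype.card_le_of_injective _ (pl_injective σ)
  have h2 := InfinitePlace.card_eq_nrRealPlaces_add_nrComplexPlaces K
  have h3 := InfinitePlace.card_add_two_mul_card_eq_rank K
  rw [hn] at h3
  rw [Fintype.card_fin] at *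
  omega

theorem mult_pl (σ : Fin n ≃ (K →+* ℝ)) (j : Fin n) : (pl σ j).mult = 1 :=
  InfinitePlace.IsReal.mult_eq_one ⟨_, isReal_comp (σ j), rfl⟩

theorem sum_log (σ : Fin n ≃ (K →+* ℝ)) (hn : finrank ℚ K = n) (ε : (𝓞 K)ˣ) :
    ∑ j, Real.log |σ j ((ε : 𝓞 K) : K)| = 0 := by
  have h := Units.sum_mult_mul_log ε
  rw [← h]
  refine Fintype.sum_bijective (pl σ) (pl_bijective σ hn) _ _ ?_
  intro j
  rw [mult_pl, pl_apply]
  simp

/-- If a linear functional `c` annihilates all the vectors of logarithms of units, it is constant. -/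
theorem const_of_annihilates (σ : Fin n ≃ (K →+* ℝ)) (hn : finrank ℚ K = n) (c : Fin n → ℝ)
    (hc : ∀ ε : (𝓞 K)ˣ, ∑ j, c j * Real.log |σ j ((ε : 𝓞 K) : K)| = 0) (i j : Fin n) :
    c i = c j := by
  classical
  -- index of the distinguished place
  obtain ⟨j₀, hj₀⟩ := (pl_bijective σ hn).2 (Units.dirichletUnitTheorem.w₀ (K := K))
  let e : Fin n ≃ InfinitePlace K := Equiv.ofBijective (pl σ) (pl_bijective σ hn)
  -- the functional on the log space
  let d : InfinitePlace K → ℝ := fun w => c (e.symm w) - c j₀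
  let G : Units.dirichletUnitTheorem.logSpace K →ₗ[ℝ] ℝ :=
    ∑ w : {w : InfinitePlace K // w ≠ Units.dirichletUnitTheorem.w₀},
      (d w) • LinearMap.proj w
  have hG : ∀ x : Units.dirichletUnitTheorem.logSpace K, G x =
      ∑ w : {w : InfinitePlace K // w ≠ Units.dirichletUnitTheorem.w₀}, d w * x w := by
    intro x
    simp [G]
  have hG0 : G = 0 := by
    have hle : Submodule.span ℝ (Units.unitLattice K :
        Set (Units.dirichletUnitTheorem.logSpace K)) ≤ LinearMap.ker G := by
      rw [Submodule.span_le]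
      rintro _ ⟨ε, -, rfl⟩
      change G (Units.logEmbedding K ε) = 0
      rw [hG]
      have h1 : ∑ w : InfinitePlace K, d w * (w.mult * Real.log (w ((ε.toMul : 𝓞 K) : K))) = 0 := by
        have h2 : ∑ w : InfinitePlace K, d w * (w.mult * Real.log (w ((ε.toMul : 𝓞 K) : K))) =
            ∑ j, (c j - c j₀) * Real.log |σ j ((ε.toMul : 𝓞 K) : K)| := by
          symm
          refine Fintype.sum_bijective (pl σ) (pl_bijective σ hn) _ _ ?_
          intro j
          have h3 : d (pl σ j) = c j - c j₀ := by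
            have : e.symm (pl σ j) = j := e.symm_apply_apply j
            simp only [d, this]
          rw [h3, mult_pl, pl_apply]
          simp
        rw [h2]
        simp only [sub_mul, Finset.sum_sub_distrib]
        rw [hc, ← Finset.mul_sum, sum_log σ hn]
        simp
      rw [Fintype.sum_eq_add_sum_subtype_ne _ (Units.dirichletUnitTheorem.w₀ (K := K))] at h1
      have h4 : d (Units.dirichletUnitTheorem.w₀ (K := K)) = 0 := by
        have : e.symm (Units.dirichletUnitTheorem.w₀ (K := K)) = j₀ := by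
          rw [← hj₀]; exact e.symm_apply_apply j₀
        simp only [d, this, sub_self]
      rw [h4, zero_mul, zero_add] at h1
      exact h1
    rw [Units.dirichletUnitTheorem.unitLattice_span_eq_top, top_le_iff] at hle
    exact LinearMap.ker_eq_top.mp hle
  have hall : ∀ i, c i = c j₀ := by
    intro i
    by_cases hi : pl σ i = Units.dirichletUnitTheorem.w₀
    · have : i = j₀ := (pl_injective σ) (hi.trans hj₀.symm)
      rw [this]
    · have h1 : G (Pi.single ⟨pl σ i, hi⟩ 1) = 0 := by rw [hG0]; rfl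
      rw [hG, Finset.sum_eq_single ⟨pl σ i, hi⟩] at h1
      · have : e.symm (pl σ i) = i := e.symm_apply_apply i
        simp only [Pi.single_eq_same, mul_one, d, this] at h1
        linarith
      · intro w _ hw
        rw [Pi.single_eq_of_ne hw, mul_zero]
      · intro h
        exact absurd (Finset.mem_univ _) h
  rw [hall i, hall j]

end Vale.Agent.P007
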