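import Mathlib

set_option autoImplicit false

namespace Vale.Agent.P007

open MeasureTheory

/-- `SL_n(ℤ)`, as a subgroup of `SL_n(ℝ)`. -/
def Gam (n : ℕ) : Subgroup (Matrix.SpecialLinearGroup (Fin n) ℝ) :=
  (Matrix.SpecialLinearGroup.map (n := Fin n) (Int.castRingHom ℝ)).range

/-- The space `X_n = SL_n(ℤ) \ SL_n(ℝ)` of cosets `SL_n(ℤ) g`. -/
def X (n : ℕ) : Type := Quotient (QuotientGroup.rightRel (Gam n))

/-- The quotient topology on `X_n`. -/
instance instTopX (n : ℕ) : TopologicalSpace (X n) :=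
  inferInstanceAs (TopologicalSpace (Quotient (QuotientGroup.rightRel (Gam n))))

/-- The Borel `σ`-algebra on `X_n`. -/
instance instMeasX (n : ℕ) : MeasurableSpace (X n) := borel (X n)

instance instBorelX (n : ℕ) : BorelSpace (X n) := ⟨rfl⟩

/-- The coset `SL_n(ℤ) g`. -/
def mk {n : ℕ} (g : Matrix.SpecialLinearGroup (Fin n) ℝ) : X n :=
  Quotient.mk (QuotientGroup.rightRel (Gam n)) g

theorem mk_eq_mk {n : ℕ} {g h : Matrix.SpecialLinearGroup (Fin n) ℝ} :
    mk g = mk h ↔ h * g⁻¹ ∈ Gam n :=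
  (Quotient.eq (r := QuotientGroup.rightRel (Gam n))).trans QuotientGroup.rightRel_apply

/-- The right action of `SL_n(ℝ)` on `X_n`: `SL_n(ℤ) g · h = SL_n(ℤ) g h`. -/
def act {n : ℕ} (h : Matrix.SpecialLinearGroup (Fin n) ℝ) (x : X n) : X n :=
  Quotient.lift (fun g => mk (g * h))
    (fun a b hab => by
      have hab' : (QuotientGroup.rightRel (Gam n)) a b := hab
      rw [QuotientGroup.rightRel_apply] at hab'
      rw [mk_eq_mk]
      simpa [mul_assoc] using hab') x

theorem act_mk {n : ℕ} (h g : Matrix.SpecialLinearGroup (Fin n) ℝ) : act h (mk g) = mk (g * h) := rfl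

theorem mk_surj {n : ℕ} (x : X n) : ∃ g, mk g = x := by
  induction x using Quotient.inductionOn with
  | h g => exact ⟨g, rfl⟩

theorem act_one {n : ℕ} (x : X n) : act 1 x = x := by
  obtain ⟨g, rfl⟩ := mk_surj x
  rw [act_mk, mul_one]

theorem act_act {n : ℕ} (h k : Matrix.SpecialLinearGroup (Fin n) ℝ) (x : X n) :
    act k (act h x) = act (h * k) x := by
  obtain ⟨g, rfl⟩ := mk_surj x
  rw [act_mk, act_mk, act_mk, mul_assoc]

/-- The exponents `(u_1, …, u_{n-1}, -(u_1 + ⋯ + u_{n-1}))`. -/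
def expo {n : ℕ} (u : Fin (n - 1) → ℝ) (j : Fin n) : ℝ :=
  if h : (j : ℕ) < n - 1 then u ⟨j, h⟩ else -∑ i, u i

theorem sum_expo {n : ℕ} (u : Fin (n - 1) → ℝ) : ∑ j, expo u j = 0 := by
  rcases n with _ | m
  · simp
  · rw [Fin.sum_univ_castSucc]
    simp [expo]

theorem expo_zero {n : ℕ} : expo (n := n) 0 = 0 := by
  funext j
  unfold expo
  split_ifs <;> simp

theorem expo_add {n : ℕ} (u v : Fin (n - 1) → ℝ) : expo (u + v) = expo u + expo v := by
  funext j
  simp only [expo, Pi.add_apply]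
  split_ifs
  · rfl
  · rw [Finset.sum_add_distrib]; ring

/-- The element `diag(e^{u_1}, …, e^{u_n})` of `A_n`, with `u_n = -(u_1 + ⋯ + u_{n-1})`. -/
noncomputable def aElt {n : ℕ} (u : Fin (n - 1) → ℝ) : Matrix.SpecialLinearGroup (Fin n) ℝ :=
  ⟨Matrix.diagonal fun j => Real.exp (expo u j), by
    rw [Matrix.det_diagonal, ← Real.exp_sum, sum_expo, Real.exp_zero]⟩

theorem aElt_zero {n : ℕ} : aElt (n := n) 0 = 1 := by
  apply Subtype.ext
  simp [aElt, expo_zero]

theorem aElt_add {n : ℕ} (u v : Fin (n - 1) → ℝ) : aElt (n := n) (u + v) = aElt u * aElt v := by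
  apply Subtype.ext
  change Matrix.diagonal _ = Matrix.diagonal _ * Matrix.diagonal _
  rw [Matrix.diagonal_mul_diagonal]
  simp only [expo_add, Pi.add_apply, Real.exp_add]

/-- The orbit `x A_n`. -/
def orbit {n : ℕ} (x : X n) : Set (X n) :=
  Set.range fun u : Fin (n - 1) → ℝ => act (aElt u) x

/-- The stabiliser in `A_n ≅ ℝ^{n-1}` of (every point of) an orbit `S`. -/
def stab {n : ℕ} (S : Set (X n)) : Submodule ℤ (Fin (n - 1) → ℝ) :=
  AddSubgroup.toIntSubmodule
    { carrier := {u | ∀ x ∈ S, act (aElt u) x = x}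
      zero_mem' := fun x _ => by rw [aElt_zero, act_one]
      add_mem' := fun {u v} hu hv x hx => by rw [aElt_add, ← act_act, hu x hx, hv x hx]
      neg_mem' := fun {u} hu x hx => by
        have h := congrArg (act (aElt (-u))) (hu x hx)
        rwa [act_act, ← aElt_add, add_neg_cancel, aElt_zero, act_one, eq_comm] at h }

theorem mem_stab {n : ℕ} (S : Set (X n)) (u : Fin (n - 1) → ℝ) :
    u ∈ stab S ↔ ∀ x ∈ S, act (aElt u) x = x := Iff.rfl

/-- The volume of an orbit `S`: the covolume of its stabiliser in `A_n` for `du_1 ⋯ du_{n-1}`. -/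
noncomputable def orbVol {n : ℕ} (S : Set (X n)) : ℝ :=
  ZLattice.covolume (stab S) volume

/-- `ν` is an `A_n`-invariant probability measure carried by the orbit `S`. -/
def IsOrbitProb {n : ℕ} (S : Set (X n)) (ν : Measure (X n)) : Prop :=
  IsProbabilityMeasure ν ∧ ν Sᶜ = 0 ∧ ∀ u : Fin (n - 1) → ℝ, ν.map (act (aElt u)) = ν

/-- `m` is an `SL_n(ℝ)`-invariant probability measure on `X_n`. -/
def IsInvProb {n : ℕ} (m : Measure (X n)) : Prop :=
  IsProbabilityMeasure m ∧ ∀ h : Matrix.SpecialLinearGroup (Fin n) ℝ, m.map (act h) = m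

/-- `O` is an order of the number field `K`: a subring (with `1`) of the ring of integers that has
full rank. -/
def IsOrderOf {K : Type} [Field K] [NumberField K] (O : Subring K) : Prop :=
  (∀ a ∈ O, IsIntegral ℤ a) ∧ Submodule.span ℚ (O : Set K) = ⊤

/-- The maximal order, as a subring of `K`. -/
def maxOrder (K : Type) [Field K] [NumberField K] : Subring K :=
  (integralClosure ℤ K).toSubring

/-- `|Disc O| = |Disc K| [O_K : O]^2`. -/
noncomputable def absDisc {K : Type} [Field K] [NumberField K] (O : Subring K) : ℕ :=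
  (NumberField.discr K).natAbs * (O.toAddSubgroup.relIndex (maxOrder K).toAddSubgroup) ^ 2

/-- The packet attached to `(K, O, σ)`: the set of all orbits `Λ_I w A_n`, where `I` is an
invertible fractional `O`-ideal, `w` a diagonal sign matrix, and `Λ_I w = c σ(I) w` with the
`c > 0` for which this lattice has covolume one (it is the row lattice `ℤ^n g` of some
`g ∈ SL_n(ℝ)`). -/
def packet {K : Type} [Field K] [NumberField K] {n : ℕ} (σ : Fin n ≃ (K →+* ℝ)) (O : Subring K) :
    Set (Set (X n)) :=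
  {S | ∃ (I : (FractionalIdeal (nonZeroDivisors O) K)ˣ) (w : Fin n → ℤˣ) (c : ℝ)
      (g : Matrix.SpecialLinearGroup (Fin n) ℝ), 0 < c ∧
      (Submodule.span ℤ (Set.range fun i => (g : Matrix (Fin n) (Fin n) ℝ) i) : Set (Fin n → ℝ)) =
        (fun (y : K) (j : Fin n) => c * σ j y * ((w j : ℤ) : ℝ)) ''
          {y : K | y ∈ (I : FractionalIdeal (nonZeroDivisors O) K)} ∧
      S = orbit (mk g)}

/-- `μ` is the packet measure `μ_{O,σ}`: the packet is finite and `μ` is the average of the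
invariant probability measures of its orbits, weighted by their volumes. -/
def IsPacketMeasure {K : Type} [Field K] [NumberField K] {n : ℕ} (σ : Fin n ≃ (K →+* ℝ))
    (O : Subring K) (μ : Measure (X n)) : Prop :=
  ∃ (F : Finset (Set (X n))) (ν : Set (X n) → Measure (X n)),
    (F : Set (Set (X n))) = packet σ O ∧ (∀ S ∈ F, IsOrbitProb S (ν S)) ∧
    μ = (∑ S ∈ F, ENNReal.ofReal (orbVol S))⁻¹ • ∑ S ∈ F, ENNReal.ofReal (orbVol S) • ν S

end Vale.Agent.P007
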