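import Vale.Agent.Lib.P007.Packet

set_option autoImplicit false

namespace Vale.Agent.P007

open MeasureTheory Topology Filter NumberField Module
open scoped Pointwise nonZeroDivisors

variable {n : ℕ} {K : Type} [Field K] [NumberField K]

/-- A full lattice in `K` has a `ℤ`-basis which is a `ℚ`-basis of `K`. -/
theorem exists_basis (hn : finrank ℚ K = n) (M : Submodule ℤ K) [Module.Finite ℤ M]
    (hM : Submodule.span ℚ (M : Set K) = ⊤) :
    ∃ b : Fin n → K, Submodule.span ℤ (Set.range b) = M ∧ Submodule.span ℚ (Set.range b) = ⊤ := by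
  classical
  have hfree : Module.Free ℤ M := inferInstance
  let b := Module.Free.chooseBasis ℤ M
  let v : Module.Free.ChooseBasisIndex ℤ M → K := fun i => (b i : K)
  have hspanZ : Submodule.span ℤ (Set.range v) = M := by
    have h1 : Set.range v = M.subtype '' (Set.range b) := by
      rw [← Set.range_comp]; rfl
    rw [h1, Submodule.span_image, b.span_eq, Submodule.map_top, Submodule.range_subtype]
  have hlin : LinearIndependent ℤ v := by
    have := b.linearIndependent.map' M.subtype (Submodule.ker_subtype M)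
    exact this
  have hlinQ : LinearIndependent ℚ v := (LinearIndependent.iff_fractionRing ℤ ℚ).mp hlin
  have hspanQ : Submodule.span ℚ (Set.range v) = ⊤ := by
    have h2 : Submodule.span ℚ (Submodule.span ℤ (Set.range v) : Set K) = ⊤ := by
      rw [hspanZ]; exact hM
    rwa [Submodule.span_span_of_tower] at h2
  let bQ : Basis (Module.Free.ChooseBasisIndex ℤ M) ℚ K := Basis.mk hlinQ hspanQ.ge
  have hcard : Fintype.card (Module.Free.ChooseBasisIndex ℤ M) = Fintype.card (Fin n) := by
    rw [Fintype.card_fin, ← hn, Module.finrank_eq_card_basis bQ]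
  let e : Module.Free.ChooseBasisIndex ℤ M ≃ Fin n := Fintype.equivOfCardEq hcard
  refine ⟨v ∘ e.symm, ?_, ?_⟩
  · rw [e.symm.surjective.range_comp]; exact hspanZ
  · rw [e.symm.surjective.range_comp]; exact hspanQ

/-- Every full lattice of `K` gives points of `X_n`. -/
theorem exists_rep (σ : Fin n ≃ (K →+* ℝ)) (hn : finrank ℚ K = n) (M : Submodule ℤ K)
    [Module.Finite ℤ M] (hM : Submodule.span ℚ (M : Set K) = ⊤) (w : Fin n → ℤˣ) :
    ∃ c : ℝ, 0 < c ∧ ∃ g : Matrix.SpecialLinearGroup (Fin n) ℝ, Rep σ g c w (M : Set K) := by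
  classical
  have hnpos : 0 < n := by rw [← hn]; exact finrank_pos
  obtain ⟨b, hbZ, hbQ⟩ := exists_basis hn M hM
  let B : Matrix (Fin n) (Fin n) ℝ := Matrix.of fun i j => σ j (b i) * ((w j : ℤ) : ℝ)
  have hB : B.det ≠ 0 := by
    intro h0
    obtain ⟨v, hv, hBv⟩ := Matrix.exists_mulVec_eq_zero_iff.mpr h0
    have hli := linearIndependent_monoidHom K ℝ
    -- the σ_j are linearly independent
    have hli2 : LinearIndependent ℝ (fun j : Fin n => (fun x : K => σ j x)) := by
      let emb : Fin n → (K →* ℝ) := fun j => ((σ j : K →+* ℝ) : K →* ℝ)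
      have hinj : Function.Injective emb := by
        intro i j hij
        apply σ.injective
        ext x
        exact DFunLike.congr_fun hij x
      exact hli.comp emb hinj
    rw [Fintype.linearIndependent_iff] at hli2
    have hzero : ∀ x : K, ∑ j, (v j * ((w j : ℤ) : ℝ)) * σ j x = 0 := by
      intro x
      have hx : x ∈ Submodule.span ℚ (Set.range b) := by rw [hbQ]; trivial
      induction hx using Submodule.span_induction with
      | mem y hy =>
        obtain ⟨i, rfl⟩ := hy
        have := congrFun hBv i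
        simp only [Matrix.mulVec, dotProduct, B, Matrix.of_apply, Pi.zero_apply] at this
        rw [← this]
        exact Finset.sum_congr rfl fun j _ => by ring
      | zero => simp
      | add y z _ _ hy hz =>
        simp only [map_add, mul_add, Finset.sum_add_distrib, hy, hz, add_zero]
      | smul q y _ hy =>
        have : ∀ j, σ j (q • y) = (q : ℝ) * σ j y := by
          intro j
          rw [Rat.smul_def, map_mul, map_ratCast]
        simp only [this]
        have h2 : ∑ j, (v j * ((w j : ℤ) : ℝ)) * ((q : ℝ) * σ j y) =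
            (q : ℝ) * ∑ j, (v j * ((w j : ℤ) : ℝ)) * σ j y := by
          rw [Finset.mul_sum]
          exact Finset.sum_congr rfl fun j _ => by ring
        rw [h2, hy, mul_zero]
    have hv0 := hli2 (fun j => v j * ((w j : ℤ) : ℝ)) (by
      funext x
      simp only [Finset.sum_apply, Pi.smul_apply, smul_eq_mul, Pi.zero_apply]
      exact hzero x)
    apply hv
    funext j
    have h3 := hv0 j
    rw [mul_eq_zero] at h3
    rcases h3 with h3 | h3
    · exact h3
    · exfalso
      have : ((w j : ℤ) : ℝ) ≠ 0 := by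
        exact_mod_cast (w j).ne_zero
      exact this h3
  -- flip the sign of the first basis vector if needed
  obtain ⟨t, ht⟩ : ∃ t : ℤˣ, 0 < (((t : ℤ) : ℝ)) * B.det := by
    rcases lt_or_gt_of_ne hB with h | h
    · exact ⟨-1, by push_cast; linarith⟩
    · exact ⟨1, by push_cast; linarith⟩
  let δ : Fin n → ℤˣ := fun i => if i = ⟨0, hnpos⟩ then t else 1
  let B' : Matrix (Fin n) (Fin n) ℝ := Matrix.diagonal (fun i => ((δ i : ℤ) : ℝ)) * B
  have hdetδ : (∏ i, ((δ i : ℤ) : ℝ)) = ((t : ℤ) : ℝ) := by
    rw [Finset.prod_eq_single ⟨0, hnpos⟩]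
    · simp [δ]
    · intro i _ hi
      simp [δ, hi]
    · intro h
      exact absurd (Finset.mem_univ _) h
  have hdetB' : 0 < B'.det := by
    simp only [B']
    rw [Matrix.det_mul, Matrix.det_diagonal, hdetδ]
    exact ht
  let c : ℝ := (B'.det)⁻¹ ^ ((1 : ℝ) / n)
  have hc : 0 < c := Real.rpow_pos_of_pos (inv_pos.mpr hdetB') _
  have hcn : c ^ n = (B'.det)⁻¹ := by
    have h1 : c ^ n = c ^ (n : ℝ) := (Real.rpow_natCast c n).symm
    rw [h1]
    simp only [c]
    rw [← Real.rpow_mul (inv_nonneg.mpr hdetB'.le), one_div, inv_mul_cancel₀, Real.rpow_one]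
    exact_mod_cast hnpos.ne'
  have hdet1 : (c • B').det = 1 := by
    rw [Matrix.det_smul, Fintype.card_fin, hcn, inv_mul_cancel₀ hdetB'.ne']
  refine ⟨c, hc, ⟨c • B', hdet1⟩, ?_⟩
  -- the row lattice
  let L : K →ₗ[ℤ] (Fin n → ℝ) :=
    { toFun := fun y j => c * σ j y * ((w j : ℤ) : ℝ)
      map_add' := by
        intro x y
        funext j
        simp only [map_add, Pi.add_apply]
        ring
      map_smul' := by
        intro m x
        funext j
        simp only [zsmul_eq_mul, map_mul, map_intCast, eq_intCast, Int.cast_id, Pi.mul_apply]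
        change _ = (((m : ℤ) : Fin n → ℝ) j) * _
        rw [Pi.intCast_apply]
        ring }
  have hrow : ∀ i, (c • B') i = L ((δ i : ℤ) • b i) := by
    intro i
    funext j
    change (c • B') i j = c * σ j ((δ i : ℤ) • b i) * ((w j : ℤ) : ℝ)
    simp only [Matrix.smul_apply, smul_eq_mul, B', Matrix.diagonal_mul, B, Matrix.of_apply,
      zsmul_eq_mul, map_mul, map_intCast]
    ring
  have hspanδ : Submodule.span ℤ (Set.range fun i => (δ i : ℤ) • b i) = M := by
    rw [← hbZ]
    apply le_antisymm
    · rw [Submodule.span_le]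
      rintro _ ⟨i, rfl⟩
      exact Submodule.smul_mem _ _ (Submodule.subset_span ⟨i, rfl⟩)
    · rw [Submodule.span_le]
      rintro _ ⟨i, rfl⟩
      have : b i = ((δ i)⁻¹ : ℤˣ) • ((δ i : ℤ) • b i) := by
        rw [Units.smul_def, smul_smul, ← Units.val_mul, inv_mul_cancel, Units.val_one, one_smul]
      rw [this]
      exact Submodule.smul_mem _ _ (Submodule.subset_span ⟨i, rfl⟩)
  change (Submodule.span ℤ (Set.range fun i => (c • B') i) : Set (Fin n → ℝ)) =
    L '' (M : Set K)
  have hr : (Set.range fun i => (c • B') i) = L '' (Set.range fun i => (δ i : ℤ) • b i) := by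
    rw [← Set.range_comp]
    congr 1
    funext i
    exact hrow i
  rw [hr, Submodule.span_image, hspanδ]
  rfl

/-- The packet is nonempty. -/
theorem packet_nonempty (σ : Fin n ≃ (K →+* ℝ)) (hn : finrank ℚ K = n) {O : Subring K}
    (hO : IsOrderOf O) : (packet σ O).Nonempty := by
  let M : Submodule ℤ K := AddSubgroup.toIntSubmodule O.toAddSubgroup
  have hMle : M ≤ (Subalgebra.toSubmodule (integralClosure ℤ K)) := by
    intro x hx
    exact hO.1 x hx
  have hNoeth : IsNoetherian ℤ (Subalgebra.toSubmodule (integralClosure ℤ K)) :=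
    (inferInstance : IsNoetherian ℤ (𝓞 K))
  have hfin : Module.Finite ℤ M := by
    have := isNoetherian_of_le hMle
    infer_instance
  have hM : Submodule.span ℚ (M : Set K) = ⊤ := hO.2
  obtain ⟨c, hc, g, hg⟩ := exists_rep σ hn M hM (fun _ => 1)
  refine ⟨orbit (mk g), 1, fun _ => 1, c, g, hc, ?_, rfl⟩
  rw [hg]
  congr 1
  ext y
  constructor
  · intro hy
    change y ∈ ((1 : (FractionalIdeal (nonZeroDivisors O) K)ˣ) : FractionalIdeal (nonZeroDivisors O) K)
    rw [Units.val_one, FractionalIdeal.mem_one_iff]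
    exact ⟨⟨y, hy⟩, rfl⟩
  · intro hy
    change y ∈ ((1 : (FractionalIdeal (nonZeroDivisors O) K)ˣ) :
      FractionalIdeal (nonZeroDivisors O) K) at hy
    rw [Units.val_one, FractionalIdeal.mem_one_iff] at hy
    obtain ⟨z, rfl⟩ := hy
    exact z.2

theorem ideal_smul_mem {O : Subring K} (I : (FractionalIdeal (nonZeroDivisors O) K)ˣ) :
    ∀ a ∈ O, ∀ y ∈ {y : K | y ∈ (I : FractionalIdeal (nonZeroDivisors O) K)},
      a * y ∈ {y : K | y ∈ (I : FractionalIdeal (nonZeroDivisors O) K)} := by
  intro a ha y hy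
  have h3 : (⟨a, ha⟩ : O) • y ∈ (I : FractionalIdeal (nonZeroDivisors O) K) :=
    Submodule.smul_mem _ _ hy
  exact h3

/-- The orbits of a packet are compact, have positive volume and carry invariant probability
measures. -/
theorem packet_orbit (σ : Fin n ≃ (K →+* ℝ)) (hn : finrank ℚ K = n) {O : Subring K}
    (hO : IsOrderOf O) {S : Set (X n)} (hS : S ∈ packet σ O) :
    IsCompact S ∧ 0 < orbVol S ∧ ∃ ν : Measure (X n), IsOrbitProb S ν := by
  obtain ⟨I, w, c, g, hc, hspan, rfl⟩ := hS
  have hsp := span_stab hn hO (hspan : Rep σ g c w _) (ideal_smul_mem I)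
  exact ⟨orbit_isCompact _ hsp, orbVol_pos _ hsp, exists_isOrbitProb _ hsp⟩

theorem isProbabilityMeasure_of_isPacketMeasure (σ : Fin n ≃ (K →+* ℝ)) (hn : finrank ℚ K = n)
    {O : Subring K} (hO : IsOrderOf O) {μ : Measure (X n)} (hμ : IsPacketMeasure σ O μ) :
    IsProbabilityMeasure μ := by
  obtain ⟨F, ν, hF, hν, rfl⟩ := hμ
  have hFne : F.Nonempty := by
    obtain ⟨S, hS⟩ := packet_nonempty σ hn hO
    rw [← hF] at hS
    exact ⟨S, hS⟩
  have hpos : 0 < ∑ S ∈ F, ENNReal.ofReal (orbVol S) := by
    obtain ⟨S, hS⟩ := hFne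
    have h1 : 0 < ENNReal.ofReal (orbVol S) := by
      rw [ENNReal.ofReal_pos]
      refine (packet_orbit σ hn hO ?_).2.1
      rw [← hF]; exact hS
    exact lt_of_lt_of_le h1
      (Finset.single_le_sum (f := fun S => ENNReal.ofReal (orbVol S)) (fun _ _ => bot_le) hS)
  have htop : ∑ S ∈ F, ENNReal.ofReal (orbVol S) ≠ ⊤ := by
    rw [ENNReal.sum_ne_top]
    intro S _
    exact ENNReal.ofReal_ne_top
  constructor
  rw [Measure.smul_apply, Measure.finsetSum_apply]
  have : ∑ S ∈ F, (ENNReal.ofReal (orbVol S) • ν S) Set.univ = ∑ S ∈ F, ENNReal.ofReal (orbVol S) := by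
    refine Finset.sum_congr rfl fun S hS => ?_
    have := (hν S hS).1
    rw [Measure.smul_apply, measure_univ, smul_eq_mul, mul_one]
  rw [this, smul_eq_mul, ENNReal.inv_mul_cancel hpos.ne' htop]

theorem exists_isPacketMeasure (σ : Fin n ≃ (K →+* ℝ)) (hn : finrank ℚ K = n)
    {O : Subring K} (hO : IsOrderOf O) : ∃ μ : Measure (X n), IsPacketMeasure σ O μ := by
  classical
  have hfin := packet_finite σ hO
  refine ⟨_, hfin.toFinset,
    fun S => if h : ∃ ν : Measure (X n), IsOrbitProb S ν then h.choose else 0,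
    hfin.coe_toFinset, ?_, rfl⟩
  intro S hS
  rw [Set.Finite.mem_toFinset] at hS
  have h := (packet_orbit σ hn hO hS).2.2
  simp only [dif_pos h]
  exact h.choose_spec

end Vale.Agent.P007
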