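import Vale.Agent.Lib.P007.Exist

set_option autoImplicit false

namespace Vale.Agent.P007

open Filter NumberField Module IntermediateField

/-- The cyclotomic field of `p`-th roots of unity inside `ℂ`. -/
theorem exists_cyclo (p : ℕ) [NeZero p] :
    ∃ M : IntermediateField ℚ ℂ, IsCyclotomicExtension {p} ℚ M := by
  have hζ := Complex.isPrimitiveRoot_exp p (NeZero.ne p)
  set ζ := Complex.exp (2 * Real.pi * Complex.I / p)
  refine ⟨IntermediateField.adjoin ℚ {ζ}, ?_⟩
  change IsCyclotomicExtension {p} ℚ (IntermediateField.adjoin ℚ {ζ}).toSubalgebra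
  have hint : IsIntegral ℚ ζ := (hζ.isIntegral (NeZero.pos p)).tower_top
  rw [IntermediateField.adjoin_simple_toSubalgebra_of_isAlgebraic hint.isAlgebraic]
  exact hζ.adjoin_isCyclotomicExtension ℚ

/-- Real cyclic subfields of prime cyclotomic fields. -/
theorem exists_real_subfield (e p : ℕ) (he : 0 < e) (hp : p.Prime) (hpe : p ≡ 1 [MOD 2 * e])
    (M : IntermediateField ℚ ℂ) [IsCyclotomicExtension {p} ℚ M] :
    ∃ L : IntermediateField ℚ ℂ, L ≤ M ∧ FiniteDimensional ℚ L ∧ IsGalois ℚ L ∧
      finrank ℚ L = e ∧ IsTotallyReal L := by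
  classical
  have hfact : Fact p.Prime := ⟨hp⟩
  have hdvd : 2 * e ∣ p - 1 := (Nat.modEq_iff_dvd' hp.one_lt.le).mp hpe.symm
  have hp2 : 2 < p := by
    have h1 : 2 * e ≤ p - 1 := Nat.le_of_dvd (Nat.sub_pos_of_lt hp.one_lt) hdvd
    omega
  have hNF : NumberField M := IsCyclotomicExtension.numberField {p} ℚ M
  have hCM : IsCMField M := IsCyclotomicExtension.Rat.isCMField M (S := {p}) ⟨p, rfl, hp2⟩
  have hGal : IsGalois ℚ M := IsCyclotomicExtension.isGalois {p} ℚ M
  -- the Galois group is cyclic of order p - 1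
  let φ : Gal(M/ℚ) ≃* (ZMod p)ˣ := IsCyclotomicExtension.Rat.galEquivZMod p M
  have hcyc : IsCyclic Gal(M/ℚ) := isCyclic_of_surjective φ.symm φ.symm.surjective
  have hcard : Nat.card Gal(M/ℚ) = p - 1 := by
    rw [Nat.card_congr φ.toEquiv, Nat.card_eq_fintype_card, ZMod.card_units]
  obtain ⟨g, hg⟩ := hcyc.exists_generator
  have hog : orderOf g = p - 1 := by
    rw [← hcard]
    exact orderOf_eq_card_of_forall_mem_zpowers hg
  let H : Subgroup Gal(M/ℚ) := Subgroup.zpowers (g ^ e)
  have hedvd : e ∣ p - 1 := dvd_trans (Dvd.intro_left 2 rfl) hdvd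
  have hH : Nat.card H = (p - 1) / e := by
    rw [Nat.card_zpowers, orderOf_pow, hog, Nat.gcd_eq_right hedvd]
  -- complex conjugation lies in H
  let c : Gal(M/ℚ) := (IsCMField.complexConj M).restrictScalars ℚ
  have hc2 : c ^ 2 = 1 := by
    rw [pow_two]
    apply AlgEquiv.ext
    intro x
    change IsCMField.complexConj M (IsCMField.complexConj M x) = x
    rw [IsCMField.complexConj_apply_apply]
  have hcH : c ∈ H := by
    obtain ⟨k, hk⟩ := hg c
    have hk2 : g ^ (k * 2) = 1 := by
      rw [zpow_mul]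
      change (g ^ k) ^ (2 : ℤ) = 1
      have : g ^ k = c := hk
      rw [this]
      exact_mod_cast hc2
    have h1 : ((orderOf g : ℕ) : ℤ) ∣ k * 2 := orderOf_dvd_iff_zpow_eq_one.mpr hk2
    rw [hog] at h1
    have h2 : ((2 * e : ℕ) : ℤ) ∣ k * 2 := dvd_trans (by exact_mod_cast hdvd) h1
    have h3 : (e : ℤ) ∣ k := by
      push_cast at h2
      rw [mul_comm k 2] at h2
      exact (mul_dvd_mul_iff_left two_ne_zero).mp h2
    obtain ⟨l, hl⟩ := h3
    refine ⟨l, ?_⟩
    change (g ^ e) ^ l = c
    have : g ^ k = c := hk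
    rw [← this, hl, zpow_mul, zpow_natCast]
  -- the fixed field
  let L0 : IntermediateField ℚ M := IntermediateField.fixedField H
  have hL0M : finrank L0 M = (p - 1) / e := by
    rw [← hH]
    exact IntermediateField.finrank_fixedField_eq_card H
  have hM : finrank ℚ M = p - 1 := by
    rw [← hcard, IsGalois.card_aut_eq_finrank]
  have hL0 : finrank ℚ L0 = e := by
    have h1 := finrank_mul_finrank ℚ L0 M
    rw [hL0M, hM] at h1
    have h2 : 0 < (p - 1) / e := Nat.div_pos (Nat.le_of_dvd (by omega) hedvd) he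
    have h3 : e * ((p - 1) / e) = p - 1 := Nat.mul_div_cancel' hedvd
    exact Nat.eq_of_mul_eq_mul_right h2 (h1.trans h3.symm)
  have hnorm : H.Normal := by
    have : IsMulCommutative Gal(M/ℚ) := inferInstance
    infer_instance
  have hL0Gal : IsGalois ℚ L0 := IsGalois.of_fixedField_normal_subgroup H
  have hL0real : IsTotallyReal L0 := by
    have hle : ∀ x : M, x ∈ L0 → x ∈ maximalRealSubfield M := by
      intro x hx
      have h1 : c x = x := (IntermediateField.mem_fixedField_iff H x).mp hx c hcH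
      exact (IsCMField.complexConj_eq_self_iff M x).mp h1
    have h2 : IsTotallyReal L0.toSubfield := by
      rw [isTotallyReal_iff_le_maximalRealSubfield]
      exact hle
    exact h2
  let ψ0 : L0 ≃+* IntermediateField.lift L0 := (IntermediateField.liftAlgEquiv L0).toRingEquiv
  let ψ : L0 ≃ₐ[ℚ] IntermediateField.lift L0 := AlgEquiv.ofRingEquiv (f := ψ0) (fun q => by simp)
  refine ⟨IntermediateField.lift L0, IntermediateField.lift_le L0, ?_, ?_, ?_, ?_⟩
  · exact ψ.toLinearEquiv.finiteDimensional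
  · have := hL0Gal
    exact IsGalois.of_algEquiv ψ
  · rw [← hL0]
    exact ψ.toLinearEquiv.finrank_eq.symm
  · exact IsTotallyReal.ofRingEquiv ψ.toRingEquiv

/-- A common subfield of two cyclotomic fields of distinct prime conductors is trivial. -/
theorem not_one_lt_finrank (p q : ℕ) (hp : p.Prime) (hq : q.Prime) (hpq : p ≠ q)
    (M N L : IntermediateField ℚ ℂ) [IsCyclotomicExtension {p} ℚ M]
    [IsCyclotomicExtension {q} ℚ N] [FiniteDimensional ℚ L] (hM : L ≤ M) (hN : L ≤ N) :
    ¬ 1 < finrank ℚ L := by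
  intro h1
  have hfp : Fact p.Prime := ⟨hp⟩
  have hfq : Fact q.Prime := ⟨hq⟩
  have hNM : NumberField M := IsCyclotomicExtension.numberField {p} ℚ M
  have hNN : NumberField N := IsCyclotomicExtension.numberField {q} ℚ N
  have hNL : NumberField L := ⟨⟩
  have hdM : discr L ∣ discr M := by
    let _ : Algebra L M := (IntermediateField.inclusion hM).toRingHom.toAlgebra
    exact discr_dvd_discr _ _
  have hdN : discr L ∣ discr N := by
    let _ : Algebra L N := (IntermediateField.inclusion hN).toRingHom.toAlgebra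
    exact discr_dvd_discr _ _
  rw [IsCyclotomicExtension.Rat.discr_prime p M] at hdM
  rw [IsCyclotomicExtension.Rat.discr_prime q N] at hdN
  have hunit : ∀ k : ℕ, IsUnit ((-1 : ℤ) ^ k) := fun k => (isUnit_one.neg).pow k
  rw [(hunit _).dvd_mul_left] at hdM hdN
  have hcop : IsCoprime ((p : ℤ) ^ (p - 2)) ((q : ℤ) ^ (q - 2)) := by
    apply IsCoprime.pow
    rw [Nat.isCoprime_iff_coprime]
    exact (Nat.coprime_primes hp hq).mpr hpq
  have hu : IsUnit (discr L) := hcop.isUnit_of_dvd' hdM hdN
  have habs := Int.isUnit_iff_abs_eq.mp hu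
  have := abs_discr_gt_two h1
  omega

/-- A finite extension of `ℚ` inside `ℂ` has only finitely many subfields. -/
theorem finite_le (F : IntermediateField ℚ ℂ) [FiniteDimensional ℚ F] :
    {L : IntermediateField ℚ ℂ | L ≤ F}.Finite := by
  have h1 : Finite (IntermediateField ℚ F) :=
    Field.finite_intermediateField_of_exists_primitive_element ℚ F
      (Field.exists_primitive_element ℚ F)
  have h2 : {L : IntermediateField ℚ ℂ | L ≤ F} ⊆
      Set.range (fun E : IntermediateField ℚ F => IntermediateField.lift E) := by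
    intro L hL
    exact ⟨IntermediateField.restrict hL, IntermediateField.lift_restrict hL⟩
  exact (Set.finite_range _).subset h2

/-- A compositum of totally real fields is totally real. -/
theorem isTotallyReal_sup' (L F : IntermediateField ℚ ℂ) [FiniteDimensional ℚ F]
    [FiniteDimensional ℚ L] (hF : IsTotallyReal F) (hL : IsTotallyReal L) :
    IsTotallyReal (L ⊔ F : IntermediateField ℚ ℂ) := by
  have hfd : FiniteDimensional ℚ (L ⊔ F : IntermediateField ℚ ℂ) := inferInstance
  have halg : Algebra.IsAlgebraic ℚ (L ⊔ F : IntermediateField ℚ ℂ) :=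
    Algebra.IsAlgebraic.of_finite ℚ _
  rw [← maximalRealSubfield_eq_top_iff_isTotallyReal]
  let R : IntermediateField ℚ (L ⊔ F : IntermediateField ℚ ℂ) :=
    (maximalRealSubfield (L ⊔ F : IntermediateField ℚ ℂ)).toIntermediateField
      (fun q => by
        rw [eq_ratCast]
        exact SubfieldClass.ratCast_mem _ q)
  have key : ∀ (G : IntermediateField ℚ ℂ) (hG : G ≤ L ⊔ F), IsTotallyReal G →
      G ≤ IntermediateField.lift R := by
    intro G hG hreal x hx
    have h1 : (⟨x, hG hx⟩ : (L ⊔ F : IntermediateField ℚ ℂ)) ∈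
        maximalRealSubfield (L ⊔ F : IntermediateField ℚ ℂ) := by
      intro φ
      let ψ : G →+* ℂ := φ.comp (IntermediateField.inclusion hG).toRingHom
      have h2 : ComplexEmbedding.IsReal ψ := IsTotallyReal.complexEmbedding_isReal ψ
      have h3 := RingHom.congr_fun (ComplexEmbedding.isReal_iff.mp h2) ⟨x, hx⟩
      rw [ComplexEmbedding.conjugate_coe_eq] at h3
      exact h3
    exact ⟨⟨x, hG hx⟩, h1, rfl⟩
  have hle : L ⊔ F ≤ IntermediateField.lift R :=
    sup_le (key L le_sup_left hL) (key F le_sup_right hF)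
  rw [eq_top_iff]
  rintro x -
  obtain ⟨y, hy, hxy⟩ := hle x.2
  have : y = x := Subtype.ext hxy
  rw [← this]
  exact hy

/-- Compositum with a Galois field of prime degree. -/
theorem sup_props (e : ℕ) (he : e.Prime) (F L : IntermediateField ℚ ℂ) [FiniteDimensional ℚ F]
    [FiniteDimensional ℚ L] [hLgal : IsGalois ℚ L] (hF : IsTotallyReal F) (hL : IsTotallyReal L)
    (hLe : finrank ℚ L = e) (hLF : ¬ L ≤ F) :
    FiniteDimensional ℚ (L ⊔ F : IntermediateField ℚ ℂ) ∧
    finrank ℚ (L ⊔ F : IntermediateField ℚ ℂ) = e * finrank ℚ F ∧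
    IsTotallyReal (L ⊔ F : IntermediateField ℚ ℂ) := by
  have hinf : L ⊓ F = ⊥ := by
    have h1 : finrank ℚ (L ⊓ F : IntermediateField ℚ ℂ) ∣ e := by
      rw [← hLe]
      exact IntermediateField.finrank_dvd_of_le_right inf_le_left
    rcases (Nat.dvd_prime he).mp h1 with h2 | h2
    · exact IntermediateField.finrank_eq_one_iff.mp h2
    · exfalso
      apply hLF
      have h3 : L ⊓ F = L := by
        apply IntermediateField.eq_of_le_of_finrank_eq inf_le_left
        rw [h2, hLe]
      rw [← h3]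
      exact inf_le_right
  have hgal : @IsGalois ℚ _ L _ (IntermediateField.algebra' L) := by
    convert hLgal
    exact Subsingleton.elim _ _
  have hdisj : L.LinearDisjoint F := IntermediateField.LinearDisjoint.of_inf_eq_bot hinf
  refine ⟨inferInstance, ?_, ?_⟩
  · rw [hdisj.finrank_sup, hLe]
  · exact isTotallyReal_sup' L F hF hL

/-- There are infinitely many totally real fields of degree `e * [F : ℚ]` containing a given
totally real `F`, for every prime `e`. -/
theorem infinite_fields (e : ℕ) (he : e.Prime) (F : IntermediateField ℚ ℂ)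
    [FiniteDimensional ℚ F] (hF : IsTotallyReal F) :
    {K : IntermediateField ℚ ℂ | F ≤ K ∧ FiniteDimensional ℚ K ∧
      finrank ℚ K = e * finrank ℚ F ∧ IsTotallyReal K}.Infinite := by
  classical
  -- for every prime p ≡ 1 mod 2e a field L_p
  have hex : ∀ p : {p : ℕ | p.Prime ∧ p ≡ 1 [MOD 2 * e]}, ∃ L M : IntermediateField ℚ ℂ,
      IsCyclotomicExtension {(p : ℕ)} ℚ M ∧ L ≤ M ∧ FiniteDimensional ℚ L ∧ IsGalois ℚ L ∧
      finrank ℚ L = e ∧ IsTotallyReal L := by
    rintro ⟨p, hp, hpe⟩
    have : NeZero p := ⟨hp.ne_zero⟩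
    obtain ⟨M, hM⟩ := exists_cyclo p
    obtain ⟨L, h1, h2, h3, h4, h5⟩ := exists_real_subfield e p he.pos hp hpe M
    exact ⟨L, M, hM, h1, h2, h3, h4, h5⟩
  choose L M hMc hLM hLfin hLgal hLe hLreal using hex
  have hinj : Function.Injective L := by
    rintro ⟨p, hp, hpe⟩ ⟨q, hq, hqe⟩ hpq
    by_contra hne
    have hne' : p ≠ q := fun h => hne (Subtype.ext h)
    have hcM := hMc ⟨p, hp, hpe⟩
    have hcN := hMc ⟨q, hq, hqe⟩
    have hLf := hLfin ⟨p, hp, hpe⟩
    apply not_one_lt_finrank p q hp hq hne' (M ⟨p, hp, hpe⟩) (M ⟨q, hq, hqe⟩) (L ⟨p, hp, hpe⟩)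
      (hLM _) (by rw [hpq]; exact hLM _)
    rw [hLe]
    exact he.one_lt
  have hinfP : Infinite {p : ℕ | p.Prime ∧ p ≡ 1 [MOD 2 * e]} := by
    have := Nat.infinite_setOfPred_prime_modEq_one (k := 2 * e) (by have := he.pos; omega)
    exact this.to_subtype
  -- discard those contained in F
  intro hfin
  have hsub : (Set.range L) ⊆ {L | L ≤ F} ∪ ⋃ K ∈ {K : IntermediateField ℚ ℂ | F ≤ K ∧
      FiniteDimensional ℚ K ∧ finrank ℚ K = e * finrank ℚ F ∧ IsTotallyReal K},
      {L : IntermediateField ℚ ℂ | L ≤ K} := by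
    rintro _ ⟨p, rfl⟩
    by_cases h : L p ≤ F
    · exact Or.inl h
    · right
      have h1 := hLfin p
      have h2 := hLgal p
      obtain ⟨h3, h4, h5⟩ := sup_props e he F (L p) hF (hLreal p) (hLe p) h
      simp only [Set.mem_iUnion]
      exact ⟨L p ⊔ F, ⟨le_sup_right, h3, h4, h5⟩, show L p ≤ L p ⊔ F from le_sup_left⟩
  have hfin2 : (Set.range L).Finite := by
    refine Set.Finite.subset ((finite_le F).union (hfin.biUnion ?_)) hsub
    rintro K ⟨-, hK, -⟩
    exact finite_le K
  exact (Set.infinite_range_of_injective hinj) hfin2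

end Vale.Agent.P007
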