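import Vale.Agent.Lib.P007.Stab

set_option autoImplicit false

namespace Vale.Agent.P007

open MeasureTheory Topology Filter NumberField Module
open scoped Pointwise nonZeroDivisors

variable {K : Type} [Field K]

/-- There are only finitely many additive groups between `m J` and `J`, for `J` finitely generated. -/
theorem finite_between (J : Submodule ℤ K) [Module.Finite ℤ J] (m : ℕ) (hm : 0 < m) :
    {A : AddSubgroup K | (∀ y ∈ A, y ∈ J) ∧ ∀ y ∈ J, (m : K) * y ∈ A}.Finite := by
  classical
  let N : Submodule ℤ J := LinearMap.range (LinearMap.lsmul ℤ J (m : ℤ))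
  have hfin : Finite (J ⧸ N) := by
    apply Module.finite_of_fg_torsion
    intro x
    obtain ⟨y, rfl⟩ := Submodule.Quotient.mk_surjective N x
    refine ⟨⟨(m : ℤ), mem_nonZeroDivisors_of_ne_zero (by exact_mod_cast hm.ne')⟩, ?_⟩
    change (m : ℤ) • (Submodule.Quotient.mk y : J ⧸ N) = 0
    rw [← Submodule.Quotient.mk_smul, Submodule.Quotient.mk_eq_zero]
    exact ⟨y, rfl⟩
  have hfs : Finite (Set (J ⧸ N)) := inferInstance
  let Φ : AddSubgroup K → Set (J ⧸ N) := fun A => {q | ((Quotient.out q : J) : K) ∈ A}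
  refine Set.Finite.of_finite_image (f := Φ) (Set.toFinite _) ?_
  -- reconstruct A from Φ A
  have key : ∀ A : AddSubgroup K, ((∀ y ∈ A, y ∈ J) ∧ ∀ y ∈ J, (m : K) * y ∈ A) →
      ∀ y : J, ((y : K) ∈ A ↔ (Submodule.Quotient.mk y : J ⧸ N) ∈ Φ A) := by
    rintro A ⟨hAJ, hmA⟩ y
    have h1 : (Submodule.Quotient.mk (Quotient.out (Submodule.Quotient.mk y : J ⧸ N)) : J ⧸ N) =
        Submodule.Quotient.mk y := Quotient.out_eq _
    rw [Submodule.Quotient.eq] at h1
    obtain ⟨z, hz⟩ := h1
    have h2 : ((Quotient.out (Submodule.Quotient.mk y : J ⧸ N) : J) : K) - (y : K) ∈ A := by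
      have h3 : (m : K) * (z : K) = ((Quotient.out (Submodule.Quotient.mk y : J ⧸ N) : J) : K) -
          (y : K) := by
        have := congrArg (fun t : J => (t : K)) hz
        simpa using this
      rw [← h3]
      exact hmA z z.2
    change _ ↔ ((Quotient.out (Submodule.Quotient.mk y : J ⧸ N) : J) : K) ∈ A
    constructor
    · intro h
      have := A.add_mem h2 h
      simpa using this
    · intro h
      have := A.sub_mem h h2
      simpa using this
  intro A hA B hB hAB
  ext y
  constructor
  · intro hy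
    have h1 := (key A hA ⟨y, hA.1 y hy⟩).mp hy
    rw [hAB] at h1
    exact (key B hB ⟨y, hA.1 y hy⟩).mpr h1
  · intro hy
    have h1 := (key B hB ⟨y, hB.1 y hy⟩).mp hy
    rw [← hAB] at h1
    exact (key A hA ⟨y, hB.1 y hy⟩).mpr h1

variable [NumberField K]

/-- Up to scaling by `K^×` there are only finitely many fractional ideals of an order. -/
theorem finite_classes {O : Subring K} (hO : IsOrderOf O) :
    ∃ T : Set (AddSubgroup K), T.Finite ∧ ∀ I : (FractionalIdeal (nonZeroDivisors O) K)ˣ,
      ∃ A ∈ T, ∃ x : K, x ≠ 0 ∧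
        {y : K | y ∈ (I : FractionalIdeal (nonZeroDivisors O) K)} =
          (fun y => x * y) '' (A : Set K) := by
  classical
  obtain ⟨m, hm, hmO⟩ := exists_conductor hO
  let Q := (FractionalIdeal (𝓞 K)⁰ K)ˣ ⧸ (toPrincipalIdeal (𝓞 K) K).range
  have hQ : Finite Q := Finite.of_equiv _ (ClassGroup.equiv (R := 𝓞 K) K).toEquiv
  let Jz : Q → Submodule ℤ K := fun q =>
    (((Quotient.out q : (FractionalIdeal (𝓞 K)⁰ K)ˣ) : FractionalIdeal (𝓞 K)⁰ K) :
      Submodule (𝓞 K) K).restrictScalars ℤ
  have hJfin : ∀ q, Module.Finite ℤ (Jz q) := fun q =>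
    (inferInstance : Module.Finite ℤ
      ((Quotient.out q : (FractionalIdeal (𝓞 K)⁰ K)ˣ) : FractionalIdeal (𝓞 K)⁰ K))
  refine ⟨⋃ q : Q, {A : AddSubgroup K | (∀ y ∈ A, y ∈ Jz q) ∧ ∀ y ∈ Jz q, (m : K) * y ∈ A}, ?_, ?_⟩
  · refine Set.finite_iUnion fun q => ?_
    have := hJfin q
    exact finite_between (Jz q) m hm
  · intro I
    set IF : FractionalIdeal (nonZeroDivisors O) K := (I : FractionalIdeal (nonZeroDivisors O) K)
      with hIF
    have hsmul : ∀ a ∈ O, ∀ y ∈ IF, a * y ∈ IF := by
      intro a ha y hy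
      have h3 : (⟨a, ha⟩ : O) • y ∈ IF := Submodule.smul_mem _ _ hy
      exact h3
    let J0 : Submodule (𝓞 K) K := Submodule.span (𝓞 K) {y : K | y ∈ IF}
    have hfrac : IsFractional (𝓞 K)⁰ J0 := by
      obtain ⟨a, ha, haI⟩ := IF.isFractional
      have ha0 : (a : K) ≠ 0 := by
        intro h
        have : a = 0 := Subtype.ext h
        exact (mem_nonZeroDivisors_iff_ne_zero.mp ha) this
      have hint : ∀ a ∈ O, IsIntegral ℤ a := hO.1
      obtain ⟨a', ha'⟩ : ∃ a' : 𝓞 K, (a' : K) = (a : K) := ⟨⟨(a : K), hint _ a.2⟩, rfl⟩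
      refine ⟨a', mem_nonZeroDivisors_of_ne_zero ?_, ?_⟩
      · intro h
        apply ha0
        rw [← ha', h]
        simp
      · intro b hb
        induction hb using Submodule.span_induction with
        | mem y hy =>
          obtain ⟨z, hz⟩ := haI y hy
          obtain ⟨z', hz'⟩ : ∃ z' : 𝓞 K, (z' : K) = (z : K) := ⟨⟨(z : K), hint _ z.2⟩, rfl⟩
          refine ⟨z', ?_⟩
          change (z' : K) = a' • y
          rw [Algebra.smul_def]
          change (z' : K) = (a' : K) * y
          rw [ha', hz']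
          have h5 : (z : K) = (a : K) * y := hz
          exact h5
        | zero => exact ⟨0, by simp⟩
        | add y z _ _ hy hz =>
          rw [smul_add]
          exact IsLocalization.isInteger_add hy hz
        | smul r y _ hy =>
          rw [smul_comm]
          exact IsLocalization.isInteger_smul hy
    let J : FractionalIdeal (𝓞 K)⁰ K := ⟨J0, hfrac⟩
    have hJmem : ∀ y, y ∈ J ↔ y ∈ J0 := fun y => Iff.rfl
    have hIne : ∃ y ∈ IF, y ≠ 0 := by
      by_contra hcon
      push Not at hcon
      have h0 : IF = 0 := by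
        rw [FractionalIdeal.eq_zero_iff]
        exact hcon
      have h1 : IF * ((I⁻¹ : (FractionalIdeal (nonZeroDivisors O) K)ˣ) :
          FractionalIdeal (nonZeroDivisors O) K) = 1 := by
        rw [hIF]; exact Units.mul_inv I
      rw [h0, zero_mul] at h1
      have h2 : (1 : K) ∈ (1 : FractionalIdeal (nonZeroDivisors O) K) :=
        FractionalIdeal.one_mem_one _
      rw [← h1, FractionalIdeal.mem_zero_iff] at h2
      exact one_ne_zero h2
    have hJ0 : J ≠ 0 := by
      obtain ⟨y, hy, hy0⟩ := hIne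
      intro h
      have h1 : y ∈ J := Submodule.subset_span hy
      rw [h, FractionalIdeal.mem_zero_iff] at h1
      exact hy0 h1
    let JU : (FractionalIdeal (𝓞 K)⁰ K)ˣ := Units.mk0 J hJ0
    let q : Q := QuotientGroup.mk JU
    have hq : (QuotientGroup.mk (Quotient.out q) : Q) = QuotientGroup.mk JU := Quotient.out_eq q
    rw [QuotientGroup.eq] at hq
    obtain ⟨x, hx⟩ := hq
    have hJeq : J = FractionalIdeal.spanSingleton (𝓞 K)⁰ (x : K) *
        ((Quotient.out q : (FractionalIdeal (𝓞 K)⁰ K)ˣ) : FractionalIdeal (𝓞 K)⁰ K) := by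
      have h1 : JU = toPrincipalIdeal (𝓞 K) K x * Quotient.out q := by
        rw [hx, mul_comm, mul_inv_cancel_left]
      have h2 := congrArg Units.val h1
      rw [Units.val_mul, coe_toPrincipalIdeal] at h2
      exact h2
    have hstrong : ∀ b ∈ J0, ∀ s : 𝓞 K, (m : K) * (s : K) * b ∈ IF := by
      intro b hb
      induction hb using Submodule.span_induction with
      | mem y hy =>
        intro s
        exact hsmul _ (hmO _ s.2) y hy
      | zero => intro s; rw [mul_zero]; exact FractionalIdeal.zero_mem IF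
      | add y z _ _ hy hz =>
        intro s
        rw [mul_add]
        exact Submodule.add_mem _ (hy s) (hz s)
      | smul r y _ hy =>
        intro s
        have h1 := hy (s * r)
        have h2 : (m : K) * (s : K) * (r • y) = (m : K) * ((s * r : 𝓞 K) : K) * y := by
          rw [Algebra.smul_def]
          push_cast
          ring
        rw [h2]
        exact h1
    have hx0 : (x : K) ≠ 0 := x.ne_zero
    let A : AddSubgroup K :=
      (IF : Submodule O K).toAddSubgroup.comap (AddMonoidHom.mulLeft (x : K))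
    have hAmem : ∀ z, z ∈ A ↔ (x : K) * z ∈ IF := fun z => Iff.rfl
    refine ⟨A, Set.mem_iUnion.mpr ⟨q, ?_, ?_⟩, (x : K), hx0, ?_⟩
    · intro z hz
      have h1 : (x : K) * z ∈ J := Submodule.subset_span ((hAmem z).mp hz)
      rw [hJeq, FractionalIdeal.mem_singleton_mul] at h1
      obtain ⟨z', hz', hzz'⟩ := h1
      have h2 : z = z' := mul_left_cancel₀ hx0 hzz'
      rw [h2]
      exact hz'
    · intro y hy
      rw [hAmem]
      have h1 : (x : K) * y ∈ J := by
        rw [hJeq, FractionalIdeal.mem_singleton_mul]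
        exact ⟨y, hy, rfl⟩
      have h2 := hstrong _ h1 1
      have h3 : (x : K) * ((m : K) * y) = (m : K) * ((1 : 𝓞 K) : K) * ((x : K) * y) := by
        push_cast
        ring
      rw [h3]
      exact h2
    · ext y
      constructor
      · intro hy
        refine ⟨(x : K)⁻¹ * y, ?_, ?_⟩
        · change (x : K)⁻¹ * y ∈ A
          rw [hAmem, mul_inv_cancel_left₀ hx0]
          exact hy
        · change (x : K) * ((x : K)⁻¹ * y) = y
          rw [mul_inv_cancel_left₀ hx0]
      · rintro ⟨z, hz, rfl⟩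
        exact (hAmem z).mp hz

end Vale.Agent.P007
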