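import Vale.Agent.Lib.P007.Space

set_option autoImplicit false

namespace Vale.Agent.P007

open MeasureTheory Matrix Topology Filter

variable {n : ℕ}

/-- The `g ∈ SL_n(ℝ)` such that `ℤ^n g` is stable under some diagonal matrix all of whose entries
are roots of `P`. -/
def bad (n : ℕ) (P : Polynomial ℤ) : Set (Matrix.SpecialLinearGroup (Fin n) ℝ) :=
  {g | ∃ t : Fin n → ℝ, (∀ j, Polynomial.aeval (t j) P = 0) ∧
    ∃ M : Matrix (Fin n) (Fin n) ℤ,
      (g : Matrix (Fin n) (Fin n) ℝ) * Matrix.diagonal t *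
        ((g⁻¹ : Matrix.SpecialLinearGroup (Fin n) ℝ) : Matrix (Fin n) (Fin n) ℝ) =
          M.map (Int.castRingHom ℝ)}

theorem bad_mul_mem (P : Polynomial ℤ) {γ g : Matrix.SpecialLinearGroup (Fin n) ℝ} (hγ : γ ∈ Gam n)
    (hg : g ∈ bad n P) : γ * g ∈ bad n P := by
  obtain ⟨t, ht, M, hM⟩ := hg
  obtain ⟨δ, rfl⟩ := hγ
  refine ⟨t, ht, (δ : Matrix (Fin n) (Fin n) ℤ) * M *
    ((δ⁻¹ : Matrix.SpecialLinearGroup (Fin n) ℤ) : Matrix (Fin n) (Fin n) ℤ), ?_⟩
  rw [Matrix.map_mul, Matrix.map_mul, ← hM, _root_.mul_inv_rev, ← map_inv]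
  simp only [Matrix.SpecialLinearGroup.coe_mul]
  have h1 : ((Matrix.SpecialLinearGroup.map (Int.castRingHom ℝ) δ : Matrix.SpecialLinearGroup (Fin n) ℝ) :
      Matrix (Fin n) (Fin n) ℝ) = (δ : Matrix (Fin n) (Fin n) ℤ).map (Int.castRingHom ℝ) := rfl
  have h2 : ((Matrix.SpecialLinearGroup.map (Int.castRingHom ℝ) δ⁻¹ : Matrix.SpecialLinearGroup (Fin n) ℝ) :
      Matrix (Fin n) (Fin n) ℝ) =
      ((δ⁻¹ : Matrix.SpecialLinearGroup (Fin n) ℤ) : Matrix (Fin n) (Fin n) ℤ).map
        (Int.castRingHom ℝ) := rfl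
  rw [h1, h2]
  simp only [mul_assoc]

theorem isClosed_bad {P : Polynomial ℤ} (hP : P ≠ 0) : IsClosed (bad n P) := by
  have hrange : IsClosed (Set.range fun M : Matrix (Fin n) (Fin n) ℤ =>
      M.map (Int.castRingHom ℝ)) := by
    have h := (Int.isClosedEmbedding_coe_real).matrix_map (m := Fin n) (n := Fin n)
    exact h.isClosed_range
  have hfin : {t : Fin n → ℝ | ∀ j, Polynomial.aeval (t j) P = 0}.Finite := by
    have h1 : {x : ℝ | Polynomial.aeval x P = 0}.Finite := by
      have h2 : (P.map (Int.castRingHom ℝ)) ≠ 0 := by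
        rwa [Ne, Polynomial.map_eq_zero_iff (RingHom.injective_int (Int.castRingHom ℝ))]
      refine ((P.map (Int.castRingHom ℝ)).roots.toFinset.finite_toSet).subset ?_
      intro x hx
      simp only [Finset.mem_coe, Multiset.mem_toFinset, Polynomial.mem_roots h2,
        Polynomial.IsRoot.def, Polynomial.eval_map]
      exact hx
    have := Set.Finite.pi (fun _ : Fin n => h1)
    refine this.subset ?_
    intro t ht j _
    exact ht j
  have : bad n P = ⋃ t ∈ {t : Fin n → ℝ | ∀ j, Polynomial.aeval (t j) P = 0},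
      (fun g : Matrix.SpecialLinearGroup (Fin n) ℝ => (g : Matrix (Fin n) (Fin n) ℝ) * Matrix.diagonal t *
        ((g⁻¹ : Matrix.SpecialLinearGroup (Fin n) ℝ) : Matrix (Fin n) (Fin n) ℝ)) ⁻¹'
        (Set.range fun M : Matrix (Fin n) (Fin n) ℤ => M.map (Int.castRingHom ℝ)) := by
    ext g
    simp only [bad, Set.mem_ofPred_eq, Set.mem_iUnion, Set.mem_preimage, Set.mem_range, exists_prop,
      eq_comm]
  rw [this]
  refine Set.Finite.isClosed_biUnion hfin fun t _ => hrange.preimage ?_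
  have hc : Continuous fun g : Matrix.SpecialLinearGroup (Fin n) ℝ => (g : Matrix (Fin n) (Fin n) ℝ) :=
    continuous_subtype_val
  exact (hc.mul continuous_const).mul (hc.comp continuous_inv)

theorem one_notMem_bad (hn : 0 < n) {P : Polynomial ℤ} (hroot : ∀ z : ℤ, P.eval z ≠ 0) :
    (1 : Matrix.SpecialLinearGroup (Fin n) ℝ) ∉ bad n P := by
  rintro ⟨t, ht, M, hM⟩
  have h1 : t ⟨0, hn⟩ = (M ⟨0, hn⟩ ⟨0, hn⟩ : ℝ) := by
    have := congrFun (congrFun hM ⟨0, hn⟩) ⟨0, hn⟩
    simpa using this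
  have h2 := ht ⟨0, hn⟩
  rw [h1] at h2
  apply hroot (M ⟨0, hn⟩ ⟨0, hn⟩)
  have h4 : ((P.eval (M ⟨0, hn⟩ ⟨0, hn⟩) : ℤ) : ℝ) = 0 := by
    rw [← h2, Polynomial.aeval_def, Polynomial.eval₂_eq_eval_map]
    simp
  exact_mod_cast h4

/-- The open set of `X_n` avoided by all packets whose order contains a root of `P`. -/
def good (n : ℕ) (P : Polynomial ℤ) : Set (X n) := {x | ∀ g, mk g = x → g ∉ bad n P}

theorem mk_mem_good_iff {P : Polynomial ℤ} {g : Matrix.SpecialLinearGroup (Fin n) ℝ} :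
    mk g ∈ good n P ↔ g ∉ bad n P := by
  constructor
  · intro h
    exact h g rfl
  · intro h g' hg' hbad
    apply h
    rw [mk_eq_mk] at hg'
    have := bad_mul_mem P hg' hbad
    simpa using this

theorem isOpen_good {P : Polynomial ℤ} (hP : P ≠ 0) : IsOpen (good n P) := by
  rw [← mk_isOpenQuotientMap.isQuotientMap.isOpen_preimage]
  have : mk ⁻¹' (good n P) = (bad n P)ᶜ := by
    ext g
    exact mk_mem_good_iff
  rw [this]
  exact (isClosed_bad hP).isOpen_compl

theorem diag_comm (t s : Fin n → ℝ) :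
    Matrix.diagonal t * Matrix.diagonal s = Matrix.diagonal s * Matrix.diagonal t := by
  rw [Matrix.diagonal_mul_diagonal, Matrix.diagonal_mul_diagonal]
  congr 1
  funext i
  exact mul_comm _ _

/-- Every point of an orbit of the packet of `O` is outside `good n P` when `O` has a root of `P`. -/
theorem orbit_disjoint_good {K : Type} [Field K] [NumberField K] {σ : Fin n ≃ (K →+* ℝ)}
    {O : Subring K} {P : Polynomial ℤ} {a : K} (haO : a ∈ O) (haP : Polynomial.aeval a P = 0)
    {S : Set (X n)} (hS : S ∈ packet σ O) {x : X n} (hx : x ∈ S) : x ∉ good n P := by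
  obtain ⟨I, w, c, g, hc, hspan, rfl⟩ := hS
  obtain ⟨u, rfl⟩ := hx
  change act (aElt u) (mk g) ∉ good n P
  rw [act_mk, mk_mem_good_iff, not_not]
  set t : Fin n → ℝ := fun j => σ j a with ht
  -- the rows of g times diag t are in the row lattice
  have hrow : ∀ i, (fun j => (g : Matrix (Fin n) (Fin n) ℝ) i j * t j) ∈
      Submodule.span ℤ (Set.range fun i => (g : Matrix (Fin n) (Fin n) ℝ) i) := by
    intro i
    have h1 : (g : Matrix (Fin n) (Fin n) ℝ) i ∈
        (Submodule.span ℤ (Set.range fun i => (g : Matrix (Fin n) (Fin n) ℝ) i) :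
          Set (Fin n → ℝ)) := Submodule.subset_span ⟨i, rfl⟩
    rw [hspan] at h1
    obtain ⟨y, hy, hyi⟩ := h1
    have h2 : (fun j => (g : Matrix (Fin n) (Fin n) ℝ) i j * t j) ∈
        (fun (y : K) (j : Fin n) => c * σ j y * ((w j : ℤ) : ℝ)) ''
          {y : K | y ∈ (I : FractionalIdeal (nonZeroDivisors O) K)} := by
      refine ⟨a * y, ?_, ?_⟩
      · have hy' : y ∈ (I : FractionalIdeal (nonZeroDivisors O) K) := hy
        have h3 : (⟨a, haO⟩ : O) • y ∈ (I : FractionalIdeal (nonZeroDivisors O) K) :=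
          Submodule.smul_mem _ _ hy'
        exact h3
      · funext j
        rw [← hyi]
        simp only [map_mul, ht]
        ring
    rw [← hspan] at h2
    exact h2
  choose N hN using fun i => (Submodule.mem_span_range_iff_exists_fun ℤ).mp (hrow i)
  refine ⟨t, ?_, Matrix.of N, ?_⟩
  · intro j
    have h5 : (σ j) (Polynomial.aeval a P) = Polynomial.aeval (t j) P := by
      rw [ht]
      have := Polynomial.aeval_algHom_apply ((σ j).toIntAlgHom) a P
      simpa using this.symm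
    rw [← h5, haP, map_zero]
  · -- matrix identity
    have hmat : (g : Matrix (Fin n) (Fin n) ℝ) * Matrix.diagonal t =
        (Matrix.of N).map (Int.castRingHom ℝ) * (g : Matrix (Fin n) (Fin n) ℝ) := by
      ext i j
      rw [Matrix.mul_diagonal, Matrix.mul_apply]
      have := congrFun (hN i) j
      simp only [Finset.sum_apply, zsmul_eq_mul] at this
      rw [← this]
      rfl
    rw [_root_.mul_inv_rev]
    simp only [Matrix.SpecialLinearGroup.coe_mul]
    have hainv : ((aElt u : Matrix.SpecialLinearGroup (Fin n) ℝ) : Matrix (Fin n) (Fin n) ℝ) *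
        (((aElt u)⁻¹ : Matrix.SpecialLinearGroup (Fin n) ℝ) : Matrix (Fin n) (Fin n) ℝ) = 1 := by
      rw [← Matrix.SpecialLinearGroup.coe_mul, mul_inv_cancel, Matrix.SpecialLinearGroup.coe_one]
    have hginv : (g : Matrix (Fin n) (Fin n) ℝ) *
        ((g⁻¹ : Matrix.SpecialLinearGroup (Fin n) ℝ) : Matrix (Fin n) (Fin n) ℝ) = 1 := by
      rw [← Matrix.SpecialLinearGroup.coe_mul, mul_inv_cancel, Matrix.SpecialLinearGroup.coe_one]
    have hcomm : ((aElt u : Matrix.SpecialLinearGroup (Fin n) ℝ) : Matrix (Fin n) (Fin n) ℝ) *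
        Matrix.diagonal t = Matrix.diagonal t *
        ((aElt u : Matrix.SpecialLinearGroup (Fin n) ℝ) : Matrix (Fin n) (Fin n) ℝ) := diag_comm _ _
    calc (g : Matrix (Fin n) (Fin n) ℝ) *
          ((aElt u : Matrix.SpecialLinearGroup (Fin n) ℝ) : Matrix (Fin n) (Fin n) ℝ) *
          Matrix.diagonal t *
          ((((aElt u)⁻¹ : Matrix.SpecialLinearGroup (Fin n) ℝ) : Matrix (Fin n) (Fin n) ℝ) *
          ((g⁻¹ : Matrix.SpecialLinearGroup (Fin n) ℝ) : Matrix (Fin n) (Fin n) ℝ))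
        = (g : Matrix (Fin n) (Fin n) ℝ) *
          (((aElt u : Matrix.SpecialLinearGroup (Fin n) ℝ) : Matrix (Fin n) (Fin n) ℝ) *
          Matrix.diagonal t) *
          ((((aElt u)⁻¹ : Matrix.SpecialLinearGroup (Fin n) ℝ) : Matrix (Fin n) (Fin n) ℝ) *
          ((g⁻¹ : Matrix.SpecialLinearGroup (Fin n) ℝ) : Matrix (Fin n) (Fin n) ℝ)) := by
            simp only [mul_assoc]
      _ = ((g : Matrix (Fin n) (Fin n) ℝ) * Matrix.diagonal t) *
          (((aElt u : Matrix.SpecialLinearGroup (Fin n) ℝ) : Matrix (Fin n) (Fin n) ℝ) *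
          (((aElt u)⁻¹ : Matrix.SpecialLinearGroup (Fin n) ℝ) : Matrix (Fin n) (Fin n) ℝ)) *
          ((g⁻¹ : Matrix.SpecialLinearGroup (Fin n) ℝ) : Matrix (Fin n) (Fin n) ℝ) := by
            rw [hcomm]; simp only [mul_assoc]
      _ = (Matrix.of N).map (Int.castRingHom ℝ) := by
            rw [hainv, hmat, mul_one, mul_assoc, hginv, mul_one]

/-- The test function. -/
theorem exists_test (hn : 0 < n) {P : Polynomial ℤ} (hP : P ≠ 0)
    (hroot : ∀ z : ℤ, P.eval z ≠ 0) :
    ∃ f : X n → ℝ, Continuous f ∧ HasCompactSupport f ∧ (∀ x, 0 ≤ f x) ∧ (∀ x ∉ good n P, f x = 0) ∧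
      (∀ m : Measure (X n), IsInvProb m → 0 < ∫ x, f x ∂m) := by
  have hopen := isOpen_good (n := n) hP
  have hone : mk (1 : Matrix.SpecialLinearGroup (Fin n) ℝ) ∈ good n P :=
    mk_mem_good_iff.mpr (one_notMem_bad hn hroot)
  obtain ⟨f, hf1, hf0, hfc, hf01⟩ := exists_continuous_one_zero_of_isCompact
    (isCompact_singleton (x := mk (1 : Matrix.SpecialLinearGroup (Fin n) ℝ)))
    (hopen.isClosed_compl) (Set.disjoint_singleton_left.mpr (fun h => h hone))
  refine ⟨f, f.continuous, hfc, fun x => (hf01 x).1, fun x hx => hf0 hx, ?_⟩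
  intro m hm
  have := hm.1
  rw [integral_pos_iff_support_of_nonneg (fun x => (hf01 x).1)
    (f.continuous.integrable_of_hasCompactSupport hfc)]
  refine hm.pos_of_isOpen ?_ ⟨mk 1, ?_⟩
  · exact f.continuous.isOpen_support
  · rw [Function.mem_support, hf1 rfl]
    exact one_ne_zero

/-- The packet measure does not see functions supported in `good n P`. -/
theorem integral_eq_zero {K : Type} [Field K] [NumberField K] {σ : Fin n ≃ (K →+* ℝ)}
    {O : Subring K} {P : Polynomial ℤ} {a : K} (haO : a ∈ O) (haP : Polynomial.aeval a P = 0)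
    {μ : Measure (X n)} (hμ : IsPacketMeasure σ O μ) {f : X n → ℝ}
    (hf : ∀ x ∉ good n P, f x = 0) : ∫ x, f x ∂μ = 0 := by
  obtain ⟨F, ν, hF, hν, rfl⟩ := hμ
  apply integral_eq_zero_of_ae
  rw [Filter.EventuallyEq, ae_iff]
  simp only [Measure.smul_apply, Measure.finsetSum_apply, smul_eq_mul]
  refine mul_eq_zero_of_right _ (Finset.sum_eq_zero ?_)
  intro S hS
  have hS' : S ∈ packet σ O := by
    rw [← hF]; exact hS
  rw [measure_mono_null _ (hν S hS).2.1, mul_zero]
  intro x hx hxS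
  exact hx (hf x (orbit_disjoint_good haO haP hS' hxS))

end Vale.Agent.P007
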