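import Vale.Agent.Lib.P007.Fields
import Vale.Agent.Lib.P007.Obstruction

set_option autoImplicit false

namespace Vale.Agent.P007

open Filter NumberField Module IntermediateField

/-- A field of degree `> 1` contains an algebraic integer that is not a rational integer. -/
theorem exists_nonrational (F : IntermediateField ℚ ℂ) [FiniteDimensional ℚ F]
    (hF : 1 < finrank ℚ F) :
    ∃ a ∈ F, IsIntegral ℤ a ∧ ∃ P : Polynomial ℤ, P ≠ 0 ∧ (∀ z : ℤ, P.eval z ≠ 0) ∧
      Polynomial.aeval a P = 0 := by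
  have hne : F ≠ ⊥ := by
    intro h
    rw [h, IntermediateField.finrank_bot] at hF
    exact lt_irrefl _ hF
  obtain ⟨y, hyF, hy⟩ : ∃ y ∈ F, y ∉ (⊥ : IntermediateField ℚ ℂ) := by
    by_contra hcon
    push Not at hcon
    exact hne (le_bot_iff.mp hcon)
  have hyalg : IsAlgebraic ℤ y := by
    have h1 : IsAlgebraic ℚ (⟨y, hyF⟩ : F) := Algebra.IsAlgebraic.isAlgebraic _
    have h2 : IsAlgebraic ℚ y := by
      have := h1.algebraMap (A := ℂ)
      exact this
    exact (IsFractionRing.isAlgebraic_iff ℤ ℚ ℂ).mpr h2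
  obtain ⟨m, hm, hint⟩ := hyalg.exists_integral_multiple
  have hmQ : (m : ℂ) ≠ 0 := by exact_mod_cast hm
  have ha : (m : ℂ) * y ∉ (⊥ : IntermediateField ℚ ℂ) := by
    intro h
    apply hy
    have h1 : (m : ℂ)⁻¹ * ((m : ℂ) * y) ∈ (⊥ : IntermediateField ℚ ℂ) :=
      mul_mem (inv_mem (intCast_mem _ m)) h
    rwa [inv_mul_cancel_left₀ hmQ] at h1
  have hint' : IsIntegral ℤ ((m : ℂ) * y) := by
    have : m • y = (m : ℂ) * y := by rw [zsmul_eq_mul]
    rwa [this] at hint
  refine ⟨(m : ℂ) * y, mul_mem (intCast_mem _ m) hyF, hint', minpoly ℤ ((m : ℂ) * y),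
    minpoly.ne_zero hint', ?_, minpoly.aeval _ _⟩
  intro z hz
  apply ha
  have h1 : minpoly ℚ ((m : ℂ) * y) = (minpoly ℤ ((m : ℂ) * y)).map (algebraMap ℤ ℚ) :=
    minpoly.isIntegrallyClosed_eq_field_fractions' ℚ hint'
  have h2 : (minpoly ℚ ((m : ℂ) * y)).IsRoot (z : ℚ) := by
    rw [h1, Polynomial.IsRoot.def, Polynomial.eval_map, ← eq_intCast (algebraMap ℤ ℚ) z,
      Polynomial.eval₂_at_apply, hz, map_zero]
  have h3 : Irreducible (minpoly ℚ ((m : ℂ) * y)) := minpoly.irreducible hint'.tower_top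
  have h4 : (minpoly ℚ ((m : ℂ) * y)).degree = 1 :=
    Polynomial.degree_eq_one_of_irreducible_of_root h3 h2
  have h5 := minpoly.mem_range_of_degree_eq_one ℚ _ h4
  rw [IntermediateField.mem_bot]
  exact h5

variable {K : Type} [Field K] [NumberField K] {n : ℕ}

theorem nonempty_sigma (hK : IsTotallyReal K) (hn : finrank ℚ K = n) :
    Nonempty (Fin n ≃ (K →+* ℝ)) := by
  classical
  let Φ : (K →+* ℝ) → (K →+* ℂ) := fun φ => Complex.ofRealHom.comp φ
  have hΦ : Function.Bijective Φ := by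
    constructor
    · intro φ ψ h
      ext x
      have := RingHom.congr_fun h x
      simpa [Φ] using this
    · intro ψ
      have h1 : ComplexEmbedding.IsReal ψ := IsTotallyReal.complexEmbedding_isReal ψ
      refine ⟨h1.embedding, ?_⟩
      ext x
      exact ComplexEmbedding.IsReal.coe_embedding_apply h1 x
  let E := Equiv.ofBijective Φ hΦ
  have hcard : Fintype.card (K →+* ℂ) = n := by
    rw [← hn]; exact Embeddings.card K ℂ
  exact ⟨(finCongr hcard.symm).trans ((Fintype.equivFin (K →+* ℂ)).symm.trans E.symm)⟩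

theorem isOrderOf_maxOrder : IsOrderOf (maxOrder K) := by
  refine ⟨fun a ha => ha, ?_⟩
  rw [eq_top_iff]
  rintro x -
  have hx : IsAlgebraic ℤ x := (IsFractionRing.isAlgebraic_iff ℤ ℚ K).mpr
    (Algebra.IsAlgebraic.isAlgebraic x)
  obtain ⟨m, hm, hint⟩ := hx.exists_integral_multiple
  have hmQ : (m : ℚ) ≠ 0 := by exact_mod_cast hm
  have h1 : x = ((m : ℚ)⁻¹) • (m • x) := by
    rw [← Int.cast_smul_eq_zsmul ℚ m x, smul_smul, inv_mul_cancel₀ hmQ, one_smul]
  rw [h1]
  exact Submodule.smul_mem _ _ (Submodule.subset_span hint)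

theorem absDisc_maxOrder : absDisc (maxOrder K) = (discr K).natAbs := by
  unfold absDisc
  rw [AddSubgroup.relIndex_self]
  simp

/-- Along an injective sequence of subfields of `ℂ` the discriminants tend to infinity. -/
theorem tendsto_discr (L : ℕ → IntermediateField ℚ ℂ) (hL : ∀ i, NumberField (L i))
    (hinj : Function.Injective L) :
    Tendsto (fun i => absDisc (maxOrder (L i))) atTop atTop := by
  rw [tendsto_atTop]
  intro N
  rw [← Nat.cofinite_eq_atTop, eventually_cofinite]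
  have hfin := NumberField.finite_of_discr_bdd ℂ N
  let ι : ℕ → {F : IntermediateField ℚ ℂ // FiniteDimensional ℚ F} :=
    fun i => ⟨L i, (hL i).to_finiteDimensional⟩
  have hι : Function.Injective ι := by
    intro i j hij
    exact hinj (congrArg Subtype.val hij)
  refine (hfin.preimage hι.injOn).subset ?_
  intro i hi
  have h1 : absDisc (maxOrder (L i)) < N := not_le.mp hi
  rw [absDisc_maxOrder] at h1
  change |discr (L i)| ≤ (N : ℤ)
  rw [Int.abs_eq_natAbs]
  exact_mod_cast h1.le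

/-! ### Non-maximal orders of a fixed field -/

/-- The order `O_E + m O_K` attached to an intermediate field `E` of `K`. -/
def relOrder (E : IntermediateField ℚ K) (m : ℕ) : Subring K where
  carrier := {x | ∃ b y : K, b ∈ E ∧ IsIntegral ℤ b ∧ IsIntegral ℤ y ∧ x = b + (m : K) * y}
  zero_mem' := ⟨0, 0, zero_mem E, isIntegral_zero, isIntegral_zero, by simp⟩
  one_mem' := ⟨1, 0, one_mem E, isIntegral_one, isIntegral_zero, by simp⟩
  add_mem' := by
    rintro _ _ ⟨b, y, hb, hbi, hyi, rfl⟩ ⟨b', y', hb', hbi', hyi', rfl⟩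
    exact ⟨b + b', y + y', add_mem hb hb', hbi.add hbi', hyi.add hyi', by ring⟩
  neg_mem' := by
    rintro _ ⟨b, y, hb, hbi, hyi, rfl⟩
    exact ⟨-b, -y, neg_mem hb, hbi.neg, hyi.neg, by ring⟩
  mul_mem' := by
    rintro _ _ ⟨b, y, hb, hbi, hyi, rfl⟩ ⟨b', y', hb', hbi', hyi', rfl⟩
    refine ⟨b * b', b * y' + y * b' + (m : K) * (y * y'), mul_mem hb hb', hbi.mul hbi', ?_,
      by ring⟩
    exact ((hbi.mul hyi').add (hyi.mul hbi')).add
      ((isIntegral_natCast m).mul (hyi.mul hyi'))

theorem mem_relOrder (E : IntermediateField ℚ K) (m : ℕ) {a : K} (ha : a ∈ E)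
    (hai : IsIntegral ℤ a) : a ∈ relOrder E m :=
  ⟨a, 0, ha, hai, isIntegral_zero, by simp⟩

theorem isOrderOf_relOrder (E : IntermediateField ℚ K) (m : ℕ) (hm : 0 < m) :
    IsOrderOf (relOrder E m) := by
  constructor
  · rintro _ ⟨b, y, -, hbi, hyi, rfl⟩
    exact hbi.add ((isIntegral_natCast m).mul hyi)
  · rw [eq_top_iff, ← (isOrderOf_maxOrder (K := K)).2, Submodule.span_le]
    intro x hx
    have hmQ : (m : ℚ) ≠ 0 := by exact_mod_cast hm.ne'
    have h1 : x = ((m : ℚ)⁻¹) • ((m : K) * x) := by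
      rw [← nsmul_eq_mul, ← Nat.cast_smul_eq_nsmul ℚ m x, smul_smul, inv_mul_cancel₀ hmQ, one_smul]
    rw [h1]
    refine Submodule.smul_mem _ _ (Submodule.subset_span ?_)
    exact ⟨0, x, zero_mem E, isIntegral_zero, hx, by simp⟩

theorem tendsto_relOrder (E : IntermediateField ℚ K) (hE : E ≠ ⊤) :
    Tendsto (fun m : ℕ => absDisc (relOrder E (m + 1))) atTop atTop := by
  classical
  -- a functional killing `E`
  have hE' : (Subalgebra.toSubmodule E.toSubalgebra) < ⊤ := by
    rw [lt_top_iff_ne_top]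
    intro h
    apply hE
    rw [eq_top_iff]
    intro x _
    have : x ∈ Subalgebra.toSubmodule E.toSubalgebra := by rw [h]; trivial
    exact this
  obtain ⟨f, hf0, hfE⟩ := Submodule.exists_le_ker_of_lt_top _ hE'
  have hfE' : ∀ b ∈ E, f b = 0 := fun b hb => hfE hb
  -- common denominator on the integers
  let b := RingOfIntegers.basis K
  let D : ℕ := ∏ i, (f ((b i : 𝓞 K) : K)).den
  have hD : 0 < D := Finset.prod_pos fun i _ => (f ((b i : 𝓞 K) : K)).den_pos
  have hDint : ∀ x : K, IsIntegral ℤ x → ∃ z : ℤ, (D : ℚ) * f x = z := by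
    intro x hx
    let x' : 𝓞 K := ⟨x, hx⟩
    have h1 : x' = ∑ i, b.repr x' i • b i := (b.sum_repr x').symm
    have h2 : x = ∑ i, (b.repr x' i : ℤ) • ((b i : 𝓞 K) : K) := by
      have := congrArg (algebraMap (𝓞 K) K) h1
      rw [map_sum] at this
      simp only [map_zsmul] at this
      exact this
    have h3 : f x = ∑ i, (b.repr x' i : ℚ) * f ((b i : 𝓞 K) : K) := by
      conv_lhs => rw [h2]
      rw [map_sum]
      refine Finset.sum_congr rfl fun i _ => ?_
      rw [map_zsmul, zsmul_eq_mul]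
    refine ⟨∑ i, (b.repr x' i) * ((∏ j ∈ Finset.univ.erase i, (f ((b j : 𝓞 K) : K)).den : ℕ) *
      (f ((b i : 𝓞 K) : K)).num), ?_⟩
    rw [h3, Finset.mul_sum]
    push_cast
    refine Finset.sum_congr rfl fun i _ => ?_
    have h4 : (D : ℚ) = (f ((b i : 𝓞 K) : K)).den *
        (∏ j ∈ Finset.univ.erase i, (f ((b j : 𝓞 K) : K)).den : ℕ) := by
      rw [← Nat.cast_mul, Finset.mul_prod_erase _ (fun j => (f ((b j : 𝓞 K) : K)).den)
        (Finset.mem_univ i)]
    rw [h4]
    have h5 : ((f ((b i : 𝓞 K) : K)).den : ℚ) * f ((b i : 𝓞 K) : K) =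
        (f ((b i : 𝓞 K) : K)).num := Rat.den_mul_eq_num _
    push_cast at h5 ⊢
    rw [← h5]
    ring
  -- an integral element with non-zero value
  obtain ⟨x0, hx0i, hx0⟩ : ∃ x0 : K, IsIntegral ℤ x0 ∧ f x0 ≠ 0 := by
    by_contra hcon
    push Not at hcon
    apply hf0
    apply LinearMap.ext
    intro x
    have hx : x ∈ Submodule.span ℚ ((maxOrder K : Subring K) : Set K) := by
      rw [(isOrderOf_maxOrder (K := K)).2]; trivial
    have hle : Submodule.span ℚ ((maxOrder K : Subring K) : Set K) ≤ LinearMap.ker f := by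
      rw [Submodule.span_le]
      intro y hy
      exact hcon y hy
    exact hle hx
  obtain ⟨c, hc⟩ := hDint x0 hx0i
  have hc0 : c ≠ 0 := by
    intro h
    rw [h, Int.cast_zero, mul_eq_zero] at hc
    rcases hc with h1 | h1
    · exact hD.ne' (by exact_mod_cast h1)
    · exact hx0 h1
  -- lower bound for the index
  have hidx : ∀ m : ℕ, m + 1 ≤ ((relOrder E (m + 1)).toAddSubgroup.relIndex
      (maxOrder K).toAddSubgroup) * c.natAbs := by
    intro m
    set k := (relOrder E (m + 1)).toAddSubgroup.relIndex (maxOrder K).toAddSubgroup with hk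
    have hk0 : k ≠ 0 := by
      -- the index is finite since (m+1) O_K is contained in the order
      intro h0
      let N : AddSubgroup (maxOrder K).toAddSubgroup :=
        (relOrder E (m + 1)).toAddSubgroup.addSubgroupOf (maxOrder K).toAddSubgroup
      have hfinG : Module.Finite ℤ (maxOrder K).toAddSubgroup :=
        (inferInstance : Module.Finite ℤ (𝓞 K))
      have hfin : Finite ((maxOrder K).toAddSubgroup ⧸ N) := by
        have hfg : Module.Finite ℤ ((maxOrder K).toAddSubgroup ⧸ N) :=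
          Module.Finite.of_surjective (QuotientAddGroup.mk' N).toIntLinearMap
            (QuotientAddGroup.mk'_surjective N)
        apply Module.finite_of_fg_torsion
        intro x
        obtain ⟨y, rfl⟩ := QuotientAddGroup.mk'_surjective N x
        refine ⟨⟨((m + 1 : ℕ) : ℤ), mem_nonZeroDivisors_of_ne_zero (by positivity)⟩, ?_⟩
        change ((m + 1 : ℕ) : ℤ) • (QuotientAddGroup.mk' N y) = 0
        rw [← map_zsmul, QuotientAddGroup.mk'_apply, QuotientAddGroup.eq_zero_iff]
        refine ⟨0, (y : K), zero_mem E, isIntegral_zero, y.2, ?_⟩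
        change ((((m + 1 : ℕ) : ℤ) • y : (maxOrder K).toAddSubgroup) : K) = _
        rw [AddSubgroup.coe_zsmul, zsmul_eq_mul, zero_add, Int.cast_natCast]
      have h1 : k = Nat.card ((maxOrder K).toAddSubgroup ⧸ N) := rfl
      have h2 := Nat.card_pos (α := (maxOrder K).toAddSubgroup ⧸ N)
      omega
    have hkx : (k : K) * x0 ∈ relOrder E (m + 1) := by
      have h1 := ((relOrder E (m + 1)).toAddSubgroup.addSubgroupOf
        (maxOrder K).toAddSubgroup).nsmul_index_mem ⟨x0, hx0i⟩
      have h2 : k • x0 ∈ relOrder E (m + 1) := h1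
      rwa [nsmul_eq_mul] at h2
    obtain ⟨b', y, hb', hbi, hyi, hxy⟩ := hkx
    obtain ⟨z, hz⟩ := hDint y hyi
    have h1 : f ((k : K) * x0) = ((m + 1 : ℕ) : ℚ) * f y := by
      rw [hxy, map_add, hfE' b' hb', zero_add, ← nsmul_eq_mul, map_nsmul, nsmul_eq_mul]
    have h2 : (k : ℚ) * f x0 = ((m + 1 : ℕ) : ℚ) * f y := by
      rw [← h1, ← nsmul_eq_mul, ← nsmul_eq_mul, map_nsmul]
    have h3 : (k : ℚ) * c = ((m + 1 : ℕ) : ℚ) * z := by
      rw [← hc, ← hz]
      linear_combination (D : ℚ) * h2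
    have h4 : (k : ℤ) * c = ((m + 1 : ℕ) : ℤ) * z := by exact_mod_cast h3
    have h5 : (m + 1) ∣ k * c.natAbs := by
      have := congrArg Int.natAbs h4
      rw [Int.natAbs_mul, Int.natAbs_mul, Int.natAbs_natCast, Int.natAbs_natCast] at this
      exact ⟨_, this⟩
    exact Nat.le_of_dvd (Nat.mul_pos (Nat.pos_of_ne_zero hk0) (Int.natAbs_pos.mpr hc0)) h5
  rw [tendsto_atTop]
  intro N
  rw [eventually_atTop]
  refine ⟨N * c.natAbs, fun m hm => ?_⟩
  have h1 := hidx m
  set k := (relOrder E (m + 1)).toAddSubgroup.relIndex (maxOrder K).toAddSubgroup with hk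
  have h2 : N ≤ k := by
    by_contra h
    push Not at h
    have h3 : k * c.natAbs ≤ N * c.natAbs := Nat.mul_le_mul_right _ h.le
    omega
  have h3 : 0 < (discr K).natAbs := Int.natAbs_pos.mpr (discr_ne_zero K)
  have h4 : absDisc (relOrder E (m + 1)) = (discr K).natAbs * k ^ 2 := rfl
  rw [h4]
  calc N ≤ k := h2
    _ ≤ k ^ 2 := by
        rcases Nat.eq_zero_or_pos k with h | h
        · simp [h]
        · nlinarith
    _ ≤ (discr K).natAbs * k ^ 2 := Nat.le_mul_of_pos_left _ h3

end Vale.Agent.P007
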