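import Vale.Agent.Lib.P007.Defs

/-!
# P007: definitions, with the points of the space being lattices
-/

set_option autoImplicit false

namespace Vale.Agent.P007.Lattices

open MeasureTheory Filter Topology NumberField Module Matrix

/-- The space `X_n` of covolume-one lattices of `ℝ^n`: the `ℤ`-submodules `ℤ^n g` spanned by the
rows of some `g ∈ SL_n(ℝ)`. -/
def Lat (n : ℕ) : Type :=
  {Λ : Submodule ℤ (Fin n → ℝ) // ∃ g : SpecialLinearGroup (Fin n) ℝ,
    Λ = Submodule.span ℤ (Set.range fun i => (g : Matrix (Fin n) (Fin n) ℝ) i)}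

/-- `g ↦ ℤ^n g` -/
def rowLat {n : ℕ} (g : SpecialLinearGroup (Fin n) ℝ) : Lat n :=
  ⟨Submodule.span ℤ (Set.range fun i => (g : Matrix (Fin n) (Fin n) ℝ) i), g, rfl⟩

/-- The topology of `X_n = SL_n(ℤ) \ SL_n(ℝ)`: the quotient topology of `g ↦ ℤ^n g`. -/
instance instTopLat (n : ℕ) : TopologicalSpace (Lat n) :=
  TopologicalSpace.coinduced rowLat inferInstance

/-- The Borel `σ`-algebra. -/
instance instMeasLat (n : ℕ) : MeasurableSpace (Lat n) := borel (Lat n)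

instance instBorelLat (n : ℕ) : BorelSpace (Lat n) := ⟨rfl⟩

theorem map_rowLat {n : ℕ} (g h : SpecialLinearGroup (Fin n) ℝ) :
    Submodule.map ((Matrix.vecMulLinear (h : Matrix (Fin n) (Fin n) ℝ)).restrictScalars ℤ)
      (Submodule.span ℤ (Set.range fun i => (g : Matrix (Fin n) (Fin n) ℝ) i)) =
    Submodule.span ℤ (Set.range fun i =>
      ((g * h : SpecialLinearGroup (Fin n) ℝ) : Matrix (Fin n) (Fin n) ℝ) i) := by
  rw [Submodule.map_span, ← Set.range_comp]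
  rfl

/-- The right action of `SL_n(ℝ)` on lattices: `Λ h = {x h : x ∈ Λ}` (row vectors). -/
def rmul {n : ℕ} (h : SpecialLinearGroup (Fin n) ℝ) (Λ : Lat n) : Lat n :=
  ⟨Submodule.map ((Matrix.vecMulLinear (h : Matrix (Fin n) (Fin n) ℝ)).restrictScalars ℤ) Λ.1, by
    obtain ⟨g, hg⟩ := Λ.2
    exact ⟨g * h, by rw [hg, map_rowLat]⟩⟩

/-- `diag(e^{u_1}, …, e^{u_n}) ∈ A_n` in the coordinates `u_1, …, u_{n-1}` of `A_n`
(`u_n = -(u_1 + ⋯ + u_{n-1})`). -/
noncomputable def dia {n : ℕ} (u : Fin (n - 1) → ℝ) : SpecialLinearGroup (Fin n) ℝ :=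
  ⟨Matrix.diagonal fun j : Fin n =>
    Real.exp (if h : (j : ℕ) < n - 1 then u ⟨j, h⟩ else -∑ i, u i), (aElt u).2⟩

/-- The orbit `Λ A_n`. -/
def orb {n : ℕ} (Λ : Lat n) : Set (Lat n) :=
  Set.range fun u : Fin (n - 1) → ℝ => rmul (dia u) Λ

theorem dia_eq {n : ℕ} (u : Fin (n - 1) → ℝ) : dia u = aElt (n := n) u := rfl

theorem rmul_rowLat {n : ℕ} (h g : SpecialLinearGroup (Fin n) ℝ) :
    rmul h (rowLat g) = rowLat (g * h) := Subtype.ext (map_rowLat g h)

theorem rowLat_surj {n : ℕ} (Λ : Lat n) : ∃ g, rowLat g = Λ := by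
  obtain ⟨g, hg⟩ := Λ.2
  exact ⟨g, Subtype.ext hg.symm⟩

theorem rmul_one {n : ℕ} (Λ : Lat n) : rmul 1 Λ = Λ := by
  obtain ⟨g, rfl⟩ := rowLat_surj Λ
  rw [rmul_rowLat, mul_one]

theorem rmul_rmul {n : ℕ} (h k : SpecialLinearGroup (Fin n) ℝ) (Λ : Lat n) :
    rmul k (rmul h Λ) = rmul (h * k) Λ := by
  obtain ⟨g, rfl⟩ := rowLat_surj Λ
  rw [rmul_rowLat, rmul_rowLat, rmul_rowLat, mul_assoc]

/-- The lattice of the `u ∈ ℝ^{n-1} ≅ A_n` which fix every point of the orbit `S`. -/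
def fixer {n : ℕ} (S : Set (Lat n)) : Submodule ℤ (Fin (n - 1) → ℝ) :=
  AddSubgroup.toIntSubmodule
    { carrier := {u | ∀ Λ ∈ S, rmul (dia u) Λ = Λ}
      zero_mem' := fun Λ _ => by rw [dia_eq, aElt_zero, rmul_one]
      add_mem' := fun {u v} hu hv Λ hΛ => by
        rw [dia_eq, aElt_add, ← rmul_rmul, ← dia_eq, ← dia_eq, hu Λ hΛ, hv Λ hΛ]
      neg_mem' := fun {u} hu Λ hΛ => by
        have h := congrArg (rmul (dia (-u))) (hu Λ hΛ)
        rwa [rmul_rmul, dia_eq, dia_eq, ← aElt_add, add_neg_cancel, aElt_zero, rmul_one,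
          eq_comm] at h }

/-- The volume of the orbit `S` for the Haar measure `du_1 ⋯ du_{n-1}` of `A_n`. -/
noncomputable def vol {n : ℕ} (S : Set (Lat n)) : ℝ := ZLattice.covolume (fixer S) volume

/-- `m` is an `SL_n(ℝ)`-invariant probability measure on the space of lattices. -/
def IsHaarProb {n : ℕ} (m : Measure (Lat n)) : Prop :=
  IsProbabilityMeasure m ∧ ∀ h : SpecialLinearGroup (Fin n) ℝ, m.map (rmul h) = m

/-- The packet `P_{O,σ}`: the orbits `Λ A_n` of the lattices `Λ = c σ(I) w`, where `I` is an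
invertible fractional `O`-ideal, `w` a diagonal sign matrix and `c > 0` (determined by `Λ` having
covolume one). -/
def pack {K : Type} [Field K] [NumberField K] {n : ℕ} (σ : Fin n ≃ (K →+* ℝ)) (O : Subring K) :
    Set (Set (Lat n)) :=
  {S | ∃ (I : (FractionalIdeal (nonZeroDivisors O) K)ˣ) (w : Fin n → ℤˣ) (c : ℝ) (Λ : Lat n),
      0 < c ∧
      (Λ.1 : Set (Fin n → ℝ)) = {x | ∃ y ∈ (I : FractionalIdeal (nonZeroDivisors O) K),
        ∀ j, x j = c * σ j y * ((w j : ℤ) : ℝ)} ∧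
      S = orb Λ}

/-- `μ` is the packet measure `μ_{O,σ}`: the packet is finite, and `μ` is the mean of the
`A_n`-invariant probability measures `ν S` of its orbits `S`, weighted by their volumes. -/
def IsPackMeasure {K : Type} [Field K] [NumberField K] {n : ℕ} (σ : Fin n ≃ (K →+* ℝ))
    (O : Subring K) (μ : Measure (Lat n)) : Prop :=
  ∃ (hfin : (pack σ O).Finite) (ν : Set (Lat n) → Measure (Lat n)),
    (∀ S ∈ pack σ O, IsProbabilityMeasure (ν S) ∧ ν S Sᶜ = 0 ∧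
      ∀ u : Fin (n - 1) → ℝ, (ν S).map (rmul (dia u)) = ν S) ∧
    μ = (∑ S ∈ hfin.toFinset, ENNReal.ofReal (vol S))⁻¹ •
      ∑ S ∈ hfin.toFinset, ENNReal.ofReal (vol S) • ν S

/-- The convergence asked for in Q1: `∫ f dμ_i → ∫ f dm` for all `f ∈ C_c(X_n)`, and no mass
escapes. -/
def Equidistributes {n : ℕ} (μ : ℕ → Measure (Lat n)) (m : Measure (Lat n)) : Prop :=
  (∀ f : Lat n → ℝ, Continuous f → HasCompactSupport f →
    Tendsto (fun i => ∫ Λ, f Λ ∂(μ i)) atTop (𝓝 (∫ Λ, f Λ ∂m))) ∧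
  ∀ ε : ℝ, 0 < ε → ∃ C : Set (Lat n), IsCompact C ∧
    ∀ᶠ i in atTop, ENNReal.ofReal (1 - ε) ≤ μ i C

/-- The statement of Q1 in degree `n` (with `m` the invariant probability): for every sequence
`(K_i, O_i, σ_i)` with `|Disc O_i| → ∞` the packet measures equidistribute. -/
def Q1 (n : ℕ) (m : Measure (Lat n)) : Prop :=
  ∀ (K : ℕ → Type) [∀ i, Field (K i)] [∀ i, NumberField (K i)] (O : ∀ i, Subring (K i))
    (σ : ∀ i, Fin n ≃ (K i →+* ℝ)) (μ : ℕ → Measure (Lat n)),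
    (∀ i, IsTotallyReal (K i)) → (∀ i, finrank ℚ (K i) = n) → (∀ i, IsOrderOf (O i)) →
    Tendsto (fun i => absDisc (O i)) atTop atTop →
    (∀ i, IsPackMeasure (σ i) (O i) (μ i)) → Equidistributes μ m

end Vale.Agent.P007.Lattices
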