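import Vale.Agent.Lib.P007.Final
import Vale.Agent.Lib.P007.Exist
import Vale.Agent.Lib.P007.LatDefs

/-!
# P007: the two encodings agree, and the failure of equidistribution for lattices
-/

set_option autoImplicit false

namespace Vale.Agent.P007.Lattices

open MeasureTheory Filter Topology NumberField Module Matrix

/-! ### The two encodings agree -/

section Bridge

variable {n : ℕ}

theorem rowLat_eq {g h : SpecialLinearGroup (Fin n) ℝ} : rowLat g = rowLat h ↔ mk g = mk h := by
  constructor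
  · intro h1
    refine mk_eq_of_rows fun i => ?_
    have h2 : Submodule.span ℤ (Set.range fun i => (g : Matrix (Fin n) (Fin n) ℝ) i) =
        Submodule.span ℤ (Set.range fun i => (h : Matrix (Fin n) (Fin n) ℝ) i) :=
      congrArg Subtype.val h1
    rw [h2]
    exact Submodule.subset_span ⟨i, rfl⟩
  · intro h1
    rw [mk_eq_mk] at h1
    have key : ∀ (g h : SpecialLinearGroup (Fin n) ℝ), h * g⁻¹ ∈ Gam n →
        Submodule.span ℤ (Set.range fun i => (h : Matrix (Fin n) (Fin n) ℝ) i) ≤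
        Submodule.span ℤ (Set.range fun i => (g : Matrix (Fin n) (Fin n) ℝ) i) := by
      rintro g h ⟨γ, hγ⟩
      rw [Submodule.span_le]
      rintro _ ⟨i, rfl⟩
      have h2 : (h : Matrix (Fin n) (Fin n) ℝ) =
          (γ : Matrix (Fin n) (Fin n) ℤ).map (Int.castRingHom ℝ) *
            (g : Matrix (Fin n) (Fin n) ℝ) := by
        have h3 : h = SpecialLinearGroup.map (Int.castRingHom ℝ) γ * g := by
          rw [hγ, inv_mul_cancel_right]
        conv_lhs => rw [h3]
        rfl
      rw [SetLike.mem_coe, Submodule.mem_span_range_iff_exists_fun]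
      refine ⟨fun k => (γ : Matrix (Fin n) (Fin n) ℤ) i k, ?_⟩
      funext j
      change _ = (h : Matrix (Fin n) (Fin n) ℝ) i j
      rw [h2, Matrix.mul_apply, Finset.sum_apply]
      refine Finset.sum_congr rfl fun k _ => ?_
      simp
    refine Subtype.ext (le_antisymm (key h g ?_) (key g h h1))
    have h2 := (Gam n).inv_mem h1
    rwa [_root_.mul_inv_rev, inv_inv] at h2

/-- the bijection `SL_n(ℤ) g ↦ ℤ^n g` -/
noncomputable def toLat (x : X n) : Lat n :=
  Quotient.lift rowLat (fun _ _ hab => rowLat_eq.2 (Quotient.sound hab)) x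

theorem toLat_mk (g : SpecialLinearGroup (Fin n) ℝ) : toLat (mk g) = rowLat g := rfl

theorem toLat_injective : Function.Injective (toLat (n := n)) := by
  intro x y h
  obtain ⟨g, rfl⟩ := mk_surj x
  obtain ⟨h', rfl⟩ := mk_surj y
  rw [toLat_mk, toLat_mk] at h
  exact rowLat_eq.1 h

theorem toLat_surjective : Function.Surjective (toLat (n := n)) := by
  intro Λ
  obtain ⟨g, rfl⟩ := rowLat_surj Λ
  exact ⟨mk g, rfl⟩

theorem isQuotientMap_rowLat : IsQuotientMap (rowLat (n := n)) :=
  ⟨⟨rfl⟩, rowLat_surj⟩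

/-- the homeomorphism -/
noncomputable def hom (n : ℕ) : X n ≃ₜ Lat n where
  toEquiv := Equiv.ofBijective toLat ⟨toLat_injective, toLat_surjective⟩
  continuous_toFun := by
    change Continuous (toLat (n := n))
    rw [mk_isOpenQuotientMap.isQuotientMap.continuous_iff]
    exact isQuotientMap_rowLat.continuous
  continuous_invFun := by
    rw [isQuotientMap_rowLat.continuous_iff]
    have : (Equiv.ofBijective toLat ⟨toLat_injective, toLat_surjective⟩).invFun ∘
        (rowLat (n := n)) = mk := by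
      funext g
      exact (Equiv.ofBijective toLat ⟨toLat_injective, toLat_surjective⟩).symm_apply_apply (mk g)
    rw [this]
    exact continuous_mk

theorem hom_apply (x : X n) : hom n x = toLat x := rfl

theorem toLat_act (h : SpecialLinearGroup (Fin n) ℝ) (x : X n) :
    toLat (act h x) = rmul h (toLat x) := by
  obtain ⟨g, rfl⟩ := mk_surj x
  rw [act_mk, toLat_mk, toLat_mk, rmul_rowLat]

theorem orb_toLat (x : X n) : orb (toLat x) = toLat '' orbit x := by
  unfold orb orbit
  rw [← Set.range_comp]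
  congr 1
  funext u
  exact (toLat_act _ x).symm

theorem fixer_image (S : Set (X n)) : fixer (toLat '' S) = stab S := by
  ext u
  constructor
  · intro hu
    rw [mem_stab]
    intro x hx
    have h1 : rmul (dia u) (toLat x) = toLat x := hu _ ⟨x, hx, rfl⟩
    rw [dia_eq, ← toLat_act] at h1
    exact toLat_injective h1
  · rintro hu _ ⟨x, hx, rfl⟩
    rw [mem_stab] at hu
    rw [dia_eq, ← toLat_act, hu x hx]

theorem vol_image (S : Set (X n)) : vol (toLat '' S) = orbVol S := by
  unfold vol orbVol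
  rw [fixer_image]

theorem mem_pack_iff {K : Type} [Field K] [NumberField K] {σ : Fin n ≃ (K →+* ℝ)}
    {O : Subring K} {S : Set (Lat n)} :
    S ∈ pack σ O ↔ ∃ T ∈ packet σ O, S = toLat '' T := by
  have hset : ∀ (I : (FractionalIdeal (nonZeroDivisors O) K)ˣ) (w : Fin n → ℤˣ) (c : ℝ),
      {x : Fin n → ℝ | ∃ y ∈ (I : FractionalIdeal (nonZeroDivisors O) K),
        ∀ j, x j = c * σ j y * ((w j : ℤ) : ℝ)} =
      (fun (y : K) (j : Fin n) => c * σ j y * ((w j : ℤ) : ℝ)) ''
          {y : K | y ∈ (I : FractionalIdeal (nonZeroDivisors O) K)} := by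
    intro I w c
    ext x
    constructor
    · rintro ⟨y, hy, hx⟩
      exact ⟨y, hy, funext fun j => (hx j).symm⟩
    · rintro ⟨y, hy, rfl⟩
      exact ⟨y, hy, fun j => rfl⟩
  constructor
  · rintro ⟨I, w, c, Λ, hc, hΛ, rfl⟩
    obtain ⟨g, rfl⟩ := rowLat_surj Λ
    rw [hset] at hΛ
    refine ⟨orbit (mk g), ⟨I, w, c, g, hc, hΛ, rfl⟩, ?_⟩
    rw [← orb_toLat, toLat_mk]
  · rintro ⟨T, ⟨I, w, c, g, hc, hΛ, rfl⟩, rfl⟩
    refine ⟨I, w, c, rowLat g, hc, ?_, ?_⟩
    · rw [hset]
      exact hΛ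
    · rw [← orb_toLat, toLat_mk]

theorem pack_eq {K : Type} [Field K] [NumberField K] (σ : Fin n ≃ (K →+* ℝ)) (O : Subring K) :
    pack σ O = (fun T => toLat '' T) '' packet σ O := by
  ext S
  rw [mem_pack_iff]
  constructor
  · rintro ⟨T, hT, rfl⟩
    exact ⟨T, hT, rfl⟩
  · rintro ⟨T, hT, rfl⟩
    exact ⟨T, hT, rfl⟩

/-! ### Orbits, measures, test functions -/

theorem continuous_rmul (h : SpecialLinearGroup (Fin n) ℝ) : Continuous (rmul (n := n) h) := by
  have : rmul (n := n) h = (hom n) ∘ act h ∘ (hom n).symm := by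
    funext Λ
    obtain ⟨x, rfl⟩ := (hom n).surjective Λ
    simp only [Function.comp_apply, Homeomorph.symm_apply_apply]
    exact (toLat_act h x).symm
  rw [this]
  exact (hom n).continuous.comp ((continuous_act h).comp (hom n).symm.continuous)

theorem map_hom_act (ν : Measure (X n)) (h : SpecialLinearGroup (Fin n) ℝ)
    (hν : ν.map (act h) = ν) : (ν.map (hom n)).map (rmul h) = ν.map (hom n) := by
  rw [Measure.map_map (continuous_rmul h).measurable (hom n).continuous.measurable]
  have : rmul h ∘ (hom n) = (hom n) ∘ act h := by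
    funext x
    exact (toLat_act h x).symm
  rw [this, ← Measure.map_map (hom n).continuous.measurable (continuous_act h).measurable, hν]

theorem map_hom_symm_rmul (m : Measure (Lat n)) (h : SpecialLinearGroup (Fin n) ℝ)
    (hm : m.map (rmul h) = m) : (m.map (hom n).symm).map (act h) = m.map (hom n).symm := by
  rw [Measure.map_map (continuous_act h).measurable (hom n).symm.continuous.measurable]
  have : act h ∘ (hom n).symm = (hom n).symm ∘ rmul h := by
    funext Λ
    obtain ⟨x, rfl⟩ := (hom n).surjective Λ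
    have h1 : rmul h ((hom n) x) = (hom n) (act h x) := (toLat_act h x).symm
    simp only [Function.comp_apply, Homeomorph.symm_apply_apply, h1]
  rw [this, ← Measure.map_map (hom n).symm.continuous.measurable (continuous_rmul h).measurable,
    hm]

theorem IsHaarProb.inv {m : Measure (Lat n)} (hm : IsHaarProb m) :
    IsInvProb (m.map (hom n).symm) := by
  have := hm.1
  exact ⟨Measure.isProbabilityMeasure_map (hom n).symm.continuous.aemeasurable,
    fun h => map_hom_symm_rmul m h (hm.2 h)⟩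

section Field

variable {K : Type} [Field K] [NumberField K]

theorem pack_finite (σ : Fin n ≃ (K →+* ℝ)) {O : Subring K} (hO : IsOrderOf O) :
    (pack σ O).Finite := by
  rw [pack_eq]
  exact (packet_finite σ hO).image _

theorem pack_nonempty (σ : Fin n ≃ (K →+* ℝ)) (hn : finrank ℚ K = n) {O : Subring K}
    (hO : IsOrderOf O) : (pack σ O).Nonempty := by
  rw [pack_eq]
  exact (packet_nonempty σ hn hO).image _

theorem pack_orbit (σ : Fin n ≃ (K →+* ℝ)) (hn : finrank ℚ K = n) {O : Subring K}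
    (hO : IsOrderOf O) {S : Set (Lat n)} (hS : S ∈ pack σ O) :
    IsCompact S ∧ 0 < vol S ∧ ∃ ν : Measure (Lat n), IsProbabilityMeasure ν ∧ ν Sᶜ = 0 ∧
      ∀ u : Fin (n - 1) → ℝ, ν.map (rmul (dia u)) = ν := by
  obtain ⟨T, hT, rfl⟩ := mem_pack_iff.1 hS
  obtain ⟨h1, h2, ν, h3, h4, h5⟩ := packet_orbit σ hn hO hT
  refine ⟨h1.image (hom n).continuous, ?_, ν.map (hom n),
    Measure.isProbabilityMeasure_map (hom n).continuous.aemeasurable, ?_,
    fun u => map_hom_act ν _ (h5 u)⟩
  · rw [vol_image]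
    exact h2
  · have e : ν.map (hom n) (toLat '' T)ᶜ = ν ((hom n) ⁻¹' (toLat '' T)ᶜ) :=
      (hom n).toMeasurableEquiv.map_apply _
    rw [e]
    refine measure_mono_null ?_ h4
    intro x hx hxT
    exact hx ⟨x, hxT, rfl⟩

theorem IsPackMeasure.prob (σ : Fin n ≃ (K →+* ℝ)) (hn : finrank ℚ K = n) {O : Subring K}
    (hO : IsOrderOf O) {μ : Measure (Lat n)} (hμ : IsPackMeasure σ O μ) :
    IsProbabilityMeasure μ := by
  obtain ⟨hfin, ν, hν, rfl⟩ := hμ
  have hpos : 0 < ∑ S ∈ hfin.toFinset, ENNReal.ofReal (vol S) := by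
    obtain ⟨S, hS⟩ := pack_nonempty σ hn hO
    have h1 : 0 < ENNReal.ofReal (vol S) := by
      rw [ENNReal.ofReal_pos]
      exact (pack_orbit σ hn hO hS).2.1
    exact lt_of_lt_of_le h1 (Finset.single_le_sum (f := fun S => ENNReal.ofReal (vol S))
      (fun _ _ => bot_le) (hfin.mem_toFinset.2 hS))
  have htop : ∑ S ∈ hfin.toFinset, ENNReal.ofReal (vol S) ≠ ⊤ := by
    rw [ENNReal.sum_ne_top]
    intro S _
    exact ENNReal.ofReal_ne_top
  constructor
  rw [Measure.smul_apply, Measure.finsetSum_apply]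
  have : ∑ S ∈ hfin.toFinset, (ENNReal.ofReal (vol S) • ν S) Set.univ =
      ∑ S ∈ hfin.toFinset, ENNReal.ofReal (vol S) := by
    refine Finset.sum_congr rfl fun S hS => ?_
    have := (hν S (hfin.mem_toFinset.1 hS)).1
    rw [Measure.smul_apply, measure_univ, smul_eq_mul, mul_one]
  rw [this, smul_eq_mul, ENNReal.inv_mul_cancel hpos.ne' htop]

theorem exists_isPackMeasure (σ : Fin n ≃ (K →+* ℝ)) (hn : finrank ℚ K = n) {O : Subring K}
    (hO : IsOrderOf O) : ∃ μ : Measure (Lat n), IsPackMeasure σ O μ := by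
  classical
  refine ⟨_, pack_finite σ hO, fun S => if h : ∃ ν : Measure (Lat n), IsProbabilityMeasure ν ∧
    ν Sᶜ = 0 ∧ ∀ u : Fin (n - 1) → ℝ, ν.map (rmul (dia u)) = ν then h.choose else 0, ?_, rfl⟩
  intro S hS
  have h := (pack_orbit σ hn hO hS).2.2
  simp only [dif_pos h]
  exact h.choose_spec

/-- a measure of a packet vanishes on a set which is disjoint from the orbits -/
theorem IsPackMeasure.null {σ : Fin n ≃ (K →+* ℝ)} {O : Subring K} {μ : Measure (Lat n)}
    (hμ : IsPackMeasure σ O μ) {U : Set (Lat n)} (hU : ∀ S ∈ pack σ O, Disjoint S U) :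
    μ U = 0 := by
  obtain ⟨hfin, ν, hν, rfl⟩ := hμ
  rw [Measure.smul_apply, Measure.finsetSum_apply, smul_eq_mul]
  refine mul_eq_zero_of_right _ (Finset.sum_eq_zero fun S hS => ?_)
  have hS' := hfin.mem_toFinset.1 hS
  rw [Measure.smul_apply, smul_eq_mul]
  refine mul_eq_zero_of_right _ (measure_mono_null ?_ (hν S hS').2.1)
  intro x hx hxS
  exact Set.disjoint_left.1 (hU S hS') hxS hx

/-- a subfield different from `ℚ` contains an algebraic integer which is not rational -/
theorem exists_poly (E : IntermediateField ℚ K) (hE : E ≠ ⊥) :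
    ∃ a ∈ E, IsIntegral ℤ a ∧ ∃ P : Polynomial ℤ, P ≠ 0 ∧ (∀ z : ℤ, P.eval z ≠ 0) ∧
      Polynomial.aeval a P = 0 := by
  obtain ⟨y, hyE, hy⟩ : ∃ y ∈ E, y ∉ (⊥ : IntermediateField ℚ K) := by
    by_contra hcon
    push Not at hcon
    exact hE (le_bot_iff.mp hcon)
  have hyalg : IsAlgebraic ℤ y := (IsFractionRing.isAlgebraic_iff ℤ ℚ K).mpr
    (Algebra.IsAlgebraic.isAlgebraic y)
  obtain ⟨m, hm, hint⟩ := hyalg.exists_integral_multiple
  have hmQ : (m : K) ≠ 0 := by exact_mod_cast hm
  have ha : (m : K) * y ∉ (⊥ : IntermediateField ℚ K) := by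
    intro h
    apply hy
    have h1 : (m : K)⁻¹ * ((m : K) * y) ∈ (⊥ : IntermediateField ℚ K) :=
      mul_mem (inv_mem (intCast_mem _ m)) h
    rwa [inv_mul_cancel_left₀ hmQ] at h1
  have hint' : IsIntegral ℤ ((m : K) * y) := by
    have : m • y = (m : K) * y := by rw [zsmul_eq_mul]
    rwa [this] at hint
  refine ⟨(m : K) * y, mul_mem (intCast_mem _ m) hyE, hint', minpoly ℤ ((m : K) * y),
    minpoly.ne_zero hint', ?_, minpoly.aeval _ _⟩
  intro z hz
  apply ha
  have h1 : minpoly ℚ ((m : K) * y) = (minpoly ℤ ((m : K) * y)).map (algebraMap ℤ ℚ) :=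
    minpoly.isIntegrallyClosed_eq_field_fractions' ℚ hint'
  have h2 : (minpoly ℚ ((m : K) * y)).IsRoot (z : ℚ) := by
    rw [h1, Polynomial.IsRoot.def, Polynomial.eval_map, ← eq_intCast (algebraMap ℤ ℚ) z,
      Polynomial.eval₂_at_apply, hz, map_zero]
  have h3 : Irreducible (minpoly ℚ ((m : K) * y)) := minpoly.irreducible hint'.tower_top
  have h4 : (minpoly ℚ ((m : K) * y)).degree = 1 :=
    Polynomial.degree_eq_one_of_irreducible_of_root h3 h2
  have h5 := minpoly.mem_range_of_degree_eq_one ℚ _ h4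
  rw [IntermediateField.mem_bot]
  exact h5

/-- an order of a field different from `ℚ` contains an integer which is not rational -/
theorem exists_poly_order (hK : 1 < finrank ℚ K) {R : Subring K} (hR : IsOrderOf R) :
    ∃ a ∈ R, ∃ P : Polynomial ℤ, P ≠ 0 ∧ (∀ z : ℤ, P.eval z ≠ 0) ∧
      Polynomial.aeval a P = 0 := by
  have hne : (⊤ : IntermediateField ℚ K) ≠ ⊥ := by
    intro h
    have h1 : finrank ℚ (⊤ : IntermediateField ℚ K) = finrank ℚ (⊥ : IntermediateField ℚ K) := by
      rw [h]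
    rw [IntermediateField.finrank_bot, IntermediateField.finrank_top'] at h1
    omega
  obtain ⟨a, haR, ha⟩ : ∃ a ∈ R, a ∉ (⊥ : IntermediateField ℚ K) := by
    by_contra hcon
    push Not at hcon
    apply hne
    rw [eq_bot_iff]
    intro x _
    have h1 : Submodule.span ℚ (R : Set K) ≤
        Subalgebra.toSubmodule (⊥ : IntermediateField ℚ K).toSubalgebra :=
      Submodule.span_le.2 fun a ha => hcon a ha
    rw [hR.2] at h1
    exact h1 trivial
  have hint := hR.1 a haR
  refine ⟨a, haR, minpoly ℤ a, minpoly.ne_zero hint, ?_, minpoly.aeval _ _⟩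
  intro z hz
  apply ha
  have h1 : minpoly ℚ a = (minpoly ℤ a).map (algebraMap ℤ ℚ) :=
    minpoly.isIntegrallyClosed_eq_field_fractions' ℚ hint
  have h2 : (minpoly ℚ a).IsRoot (z : ℚ) := by
    rw [h1, Polynomial.IsRoot.def, Polynomial.eval_map, ← eq_intCast (algebraMap ℤ ℚ) z,
      Polynomial.eval₂_at_apply, hz, map_zero]
  have h3 : Irreducible (minpoly ℚ a) := minpoly.irreducible hint.tower_top
  have h4 : (minpoly ℚ a).degree = 1 :=
    Polynomial.degree_eq_one_of_irreducible_of_root h3 h2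
  have h5 := minpoly.mem_range_of_degree_eq_one ℚ _ h4
  rw [IntermediateField.mem_bot]
  exact h5

end Field

/-- the open set avoided by the packets of the orders which contain a root of `P` -/
noncomputable def hole (n : ℕ) (P : Polynomial ℤ) : Set (Lat n) := toLat '' good n P

theorem isOpen_hole {P : Polynomial ℤ} (hP : P ≠ 0) : IsOpen (hole n P) :=
  (hom n).isOpenMap _ (isOpen_good hP)

theorem nonempty_hole (hn : 0 < n) {P : Polynomial ℤ} (hroot : ∀ z : ℤ, P.eval z ≠ 0) :
    (hole n P).Nonempty :=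
  ⟨_, mk 1, mk_mem_good_iff.mpr (one_notMem_bad hn hroot), rfl⟩

theorem pos_hole (hn : 0 < n) {P : Polynomial ℤ} (hP : P ≠ 0) (hroot : ∀ z : ℤ, P.eval z ≠ 0)
    {m : Measure (Lat n)} (hm : IsHaarProb m) : 0 < m (hole n P) := by
  have h1 := hm.inv.pos_of_isOpen (isOpen_good (n := n) hP)
    ⟨mk 1, mk_mem_good_iff.mpr (one_notMem_bad hn hroot)⟩
  have e : m.map (hom n).symm (good n P) = m ((hom n).symm ⁻¹' good n P) :=
    (hom n).symm.toMeasurableEquiv.map_apply _
  rw [e, ← Homeomorph.image_eq_preimage_symm] at h1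
  exact h1

theorem disjoint_hole {K : Type} [Field K] [NumberField K] {σ : Fin n ≃ (K →+* ℝ)}
    {O : Subring K} {P : Polynomial ℤ} {a : K} (haO : a ∈ O) (haP : Polynomial.aeval a P = 0)
    {S : Set (Lat n)} (hS : S ∈ pack σ O) : Disjoint S (hole n P) := by
  obtain ⟨T, hT, rfl⟩ := mem_pack_iff.1 hS
  rw [Set.disjoint_left]
  rintro _ ⟨x, hx, rfl⟩ ⟨y, hy, hxy⟩
  have := toLat_injective hxy
  rw [this] at hy
  exact orbit_disjoint_good haO haP hT hx hy

theorem exists_testfun (hn : 0 < n) {P : Polynomial ℤ} (hP : P ≠ 0)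
    (hroot : ∀ z : ℤ, P.eval z ≠ 0) :
    ∃ f : Lat n → ℝ, Continuous f ∧ HasCompactSupport f ∧
      (∀ μ : Measure (Lat n), μ (hole n P) = 0 → ∫ Λ, f Λ ∂μ = 0) ∧
      ∀ m : Measure (Lat n), IsHaarProb m → 0 < ∫ Λ, f Λ ∂m := by
  obtain ⟨f, hfc, hfs, -, hf0, hfm⟩ := exists_test hn hP hroot
  refine ⟨f ∘ (hom n).symm, hfc.comp (hom n).symm.continuous,
    hfs.comp_homeomorph (hom n).symm, ?_, ?_⟩
  · intro μ hμ
    apply integral_eq_zero_of_ae
    rw [Filter.EventuallyEq, ae_iff]
    refine measure_mono_null ?_ hμ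
    intro Λ hΛ
    refine ⟨(hom n).symm Λ, ?_, (hom n).apply_symm_apply Λ⟩
    by_contra hcon
    exact hΛ (hf0 _ hcon)
  · intro m hm
    have h1 := hfm _ hm.inv
    rw [MeasureTheory.integral_map (hom n).symm.continuous.aemeasurable
      hfc.aestronglyMeasurable] at h1
    exact h1

end Bridge

/-- The packets of an order containing a root of `P` avoid the open set `hole n P`. -/
theorem avoid {n : ℕ} {K : Type} [Field K] [NumberField K] (hd : finrank ℚ K = n)
    {O : Subring K} (hO : IsOrderOf O) {a : K} (haO : a ∈ O) {P : Polynomial ℤ}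
    (haP : Polynomial.aeval a P = 0) (σ : Fin n ≃ (K →+* ℝ)) :
    (∀ S ∈ pack σ O, IsCompact S ∧ 0 < vol S ∧ ∀ Λ ∈ S, Λ ∉ hole n P) ∧
      (∃ μ : Measure (Lat n), IsPackMeasure σ O μ) ∧
      ∀ μ : Measure (Lat n), IsPackMeasure σ O μ → IsProbabilityMeasure μ ∧ μ (hole n P) = 0 :=
  ⟨fun _ hS => ⟨(pack_orbit σ hd hO hS).1, (pack_orbit σ hd hO hS).2.1,
    fun _ hΛ => Set.disjoint_left.1 (disjoint_hole haO haP hS) hΛ⟩,
    exists_isPackMeasure σ hd hO, fun _ hμ => ⟨hμ.prob σ hd hO,
      hμ.null fun _ hS => disjoint_hole haO haP hS⟩⟩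

/-- A sequence of totally real fields of composite degree sharing an irrational integer. -/
theorem exists_fields {n : ℕ} (h4 : 4 ≤ n) (hcomp : ¬ n.Prime) :
    ∃ (L : ℕ → IntermediateField ℚ ℂ) (_ : ∀ i, NumberField (L i)) (P : Polynomial ℤ),
      (∀ i, IsTotallyReal (L i)) ∧ (∀ i, finrank ℚ (L i) = n) ∧
      Tendsto (fun i => absDisc (maxOrder (L i))) atTop atTop ∧ P ≠ 0 ∧
      (∀ z : ℤ, P.eval z ≠ 0) ∧ ∀ i, ∃ a ∈ maxOrder (L i), Polynomial.aeval a P = 0 := by
  set e := n.minFac with he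
  have hep : e.Prime := Nat.minFac_prime (by omega)
  obtain ⟨d, hd⟩ : e ∣ n := Nat.minFac_dvd n
  have hd1 : 1 < d := by
    by_contra hcon
    interval_cases d
    · omega
    · rw [mul_one] at hd
      exact hcomp (hd ▸ hep)
  obtain ⟨p, hp, -, hpd⟩ := Nat.exists_prime_gt_modEq_one (k := 2 * d) 2 (by omega)
  have : NeZero p := ⟨hp.ne_zero⟩
  obtain ⟨M, hM⟩ := exists_cyclo p
  obtain ⟨F, -, hFfin, -, hFd, hFreal⟩ :=
    exists_real_subfield d p (by omega) hp hpd M
  obtain ⟨a, haF, hai, P, hP, hroot, haP⟩ :=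
    exists_nonrational F (by rw [hFd]; exact hd1)
  have hinf := infinite_fields e hep F hFreal
  rw [hFd, ← hd] at hinf
  let L : ℕ → IntermediateField ℚ ℂ :=
    fun i => (Set.Infinite.natEmbedding _ hinf i : IntermediateField ℚ ℂ)
  have hLinj : Function.Injective L := fun i j hij =>
    (Set.Infinite.natEmbedding _ hinf).injective (Subtype.ext hij)
  have hLmem : ∀ i, F ≤ L i ∧ FiniteDimensional ℚ (L i) ∧ finrank ℚ (L i) = n ∧
      IsTotallyReal (L i) := fun i => (Set.Infinite.natEmbedding _ hinf i).2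
  have hLNF : ∀ i, NumberField (L i) := fun i =>
    { to_charZero := inferInstance
      to_finiteDimensional := (hLmem i).2.1 }
  refine ⟨L, hLNF, P, fun i => (hLmem i).2.2.2, fun i => (hLmem i).2.2.1,
    tendsto_discr L hLNF hLinj, hP, hroot, fun i => ?_⟩
  refine ⟨⟨a, (hLmem i).1 haF⟩, ?_, ?_⟩
  · change IsIntegral ℤ (⟨a, (hLmem i).1 haF⟩ : L i)
    rw [← isIntegral_algebraMap_iff (algebraMap (L i) ℂ).injective]
    exact hai
  · apply (algebraMap (L i) ℂ).injective
    rw [map_zero, ← Polynomial.aeval_algebraMap_apply]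
    exact haP

/-- Packets of orders containing copies of a fixed order avoid a fixed part of the space. -/
theorem necessary {n : ℕ} (hn : 0 < n) (K : ℕ → Type) [∀ i, Field (K i)]
    [∀ i, NumberField (K i)] (O : ∀ i, Subring (K i)) (σ : ∀ i, Fin n ≃ (K i →+* ℝ))
    (μ : ℕ → Measure (Lat n)) (m : Measure (Lat n))
    (hμ : ∀ i, IsPackMeasure (σ i) (O i) (μ i)) (hm : IsHaarProb m)
    (hconv : ∀ f : Lat n → ℝ, Continuous f → HasCompactSupport f →
      Tendsto (fun i => ∫ Λ, f Λ ∂(μ i)) atTop (𝓝 (∫ Λ, f Λ ∂m)))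
    (P : Polynomial ℤ) (hP : P ≠ 0) (hroot : ∀ z : ℤ, P.eval z ≠ 0) :
    {i | ∃ a ∈ O i, Polynomial.aeval a P = 0}.Finite := by
  obtain ⟨f, hfc, hfs, hf0, hfm⟩ := exists_testfun hn hP hroot
  have h2 : ∀ᶠ i in atTop, 0 < ∫ Λ, f Λ ∂(μ i) := (hconv f hfc hfs).eventually_const_lt (hfm m hm)
  rw [eventually_atTop] at h2
  obtain ⟨N, hN⟩ := h2
  refine (Set.finite_lt_nat N).subset ?_
  rintro i ⟨a, haO, haP⟩
  by_contra hi
  have h3 := hN i (not_lt.mp hi)
  rw [hf0 _ ((hμ i).null fun S hS => disjoint_hole haO haP hS)] at h3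
  exact lt_irrefl _ h3

end Vale.Agent.P007.Lattices
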