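import Vale.Agent.Lib.P007.Space

set_option autoImplicit false

namespace Vale.Agent.P007

open MeasureTheory Topology Filter
open scoped Pointwise

variable {n : ℕ}

theorem mem_orbit_self (x : X n) : x ∈ orbit x := ⟨0, by simp [aElt_zero, act_one]⟩

theorem mem_stab_orbit {x : X n} {u : Fin (n - 1) → ℝ} :
    u ∈ stab (orbit x) ↔ act (aElt u) x = x := by
  rw [mem_stab]
  constructor
  · intro h
    exact h x (mem_orbit_self x)
  · rintro h _ ⟨v, rfl⟩
    change act (aElt u) (act (aElt v) x) = act (aElt v) x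
    rw [act_act, ← aElt_add, add_comm, aElt_add, ← act_act, h]

theorem exp_expo_injective {u : Fin (n - 1) → ℝ} (h : aElt (n := n) u = 1) : u = 0 := by
  funext i
  have hi : (i : ℕ) < n := lt_of_lt_of_le i.2 (Nat.sub_le n 1)
  have h1 : ((aElt u : Matrix.SpecialLinearGroup (Fin n) ℝ) : Matrix (Fin n) (Fin n) ℝ)
      ⟨i, hi⟩ ⟨i, hi⟩ = 1 := by
    rw [h]
    simp
  have h2 : Real.exp (expo u (⟨i, hi⟩ : Fin n)) = 1 := by
    rw [← h1]
    simp [aElt]
  rw [Real.exp_eq_one_iff] at h2
  simpa [expo] using h2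

theorem stab_discrete (x : X n) : DiscreteTopology (stab (orbit x)) := by
  obtain ⟨g, rfl⟩ := mk_surj x
  have hmem : ∀ u : stab (orbit (mk g)), g * aElt (u : Fin (n - 1) → ℝ) * g⁻¹ ∈ Gam n := by
    intro u
    have h := mem_stab_orbit.mp u.2
    rw [act_mk] at h
    exact mk_eq_mk.mp h.symm
  let f : stab (orbit (mk g)) → Gam n := fun u => ⟨g * aElt (u : Fin (n - 1) → ℝ) * g⁻¹, hmem u⟩
  have hf : Continuous f := by
    refine Continuous.subtype_mk ?_ _
    exact (continuous_const.mul (continuous_aElt.comp continuous_subtype_val)).mul continuous_const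
  have hinj : Function.Injective f := by
    intro u v huv
    have h1 : g * aElt (u : Fin (n - 1) → ℝ) * g⁻¹ = g * aElt (v : Fin (n - 1) → ℝ) * g⁻¹ :=
      congrArg Subtype.val huv
    have h2 : aElt (n := n) (u : Fin (n - 1) → ℝ) = aElt (v : Fin (n - 1) → ℝ) := by
      simpa using h1
    have h3 : aElt (n := n) ((u : Fin (n - 1) → ℝ) - v) = 1 := by
      have h4 : aElt (n := n) ((u : Fin (n - 1) → ℝ) - v) * aElt (v : Fin (n - 1) → ℝ) =
          aElt (v : Fin (n - 1) → ℝ) := by
        rw [← aElt_add, sub_add_cancel, h2]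
      simpa using h4
    have h5 := exp_expo_injective h3
    exact Subtype.ext (sub_eq_zero.mp h5)
  have := gam_discrete (n := n)
  exact DiscreteTopology.of_continuous_injective hf hinj

/-- An orbit whose stabiliser spans is compact. -/
theorem orbit_isCompact (x : X n) (hL : Submodule.span ℝ (stab (orbit x) : Set (Fin (n - 1) → ℝ)) = ⊤) :
    IsCompact (orbit x) := by
  have := stab_discrete x
  have hz : IsZLattice ℝ (stab (orbit x)) := ⟨hL⟩
  refine IsZLattice.isCompact_range_of_periodic (stab (orbit x)) _ (continuous_orbitMap x) ?_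
  intro z w hw
  change act (aElt (z + w)) x = act (aElt z) x
  rw [add_comm, aElt_add, ← act_act, mem_stab_orbit.mp hw]

theorem orbVol_pos (x : X n) (hL : Submodule.span ℝ (stab (orbit x) : Set (Fin (n - 1) → ℝ)) = ⊤) :
    0 < orbVol (orbit x) := by
  have := stab_discrete x
  have hz : IsZLattice ℝ (stab (orbit x)) := ⟨hL⟩
  exact ZLattice.covolume_pos (stab (orbit x)) volume

/-- Existence of the invariant probability measure on a compact orbit. -/
theorem exists_isOrbitProb (x : X n)
    (hL : Submodule.span ℝ (stab (orbit x) : Set (Fin (n - 1) → ℝ)) = ⊤) :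
    ∃ ν : Measure (X n), IsOrbitProb (orbit x) ν := by
  have hdisc := stab_discrete x
  have hz : IsZLattice ℝ (stab (orbit x)) := ⟨hL⟩
  set L := stab (orbit x) with hLdef
  have hfree := ZLattice.module_free ℝ L
  let b := Module.Free.chooseBasis ℤ L
  let D : Set (Fin (n - 1) → ℝ) := ZSpan.fundamentalDomain (b.ofZLatticeBasis ℝ)
  have hD : IsAddFundamentalDomain L D volume := ZLattice.isAddFundamentalDomain b volume
  have hDmeas : MeasurableSet D := ZSpan.fundamentalDomain_measurableSet _
  have hD0 : volume D ≠ 0 := ZSpan.measure_fundamentalDomain_ne_zero _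
  have hDtop : volume D ≠ ⊤ := (ZSpan.fundamentalDomain_isBounded _).measure_lt_top.ne
  let φ : (Fin (n - 1) → ℝ) → X n := fun u => act (aElt u) x
  have hφc : Continuous φ := continuous_orbitMap x
  have hφ : Measurable φ := hφc.measurable
  have hcount : Countable L := inferInstance
  refine ⟨(volume D)⁻¹ • (volume.restrict D).map φ, ?_, ?_, ?_⟩
  · constructor
    rw [Measure.smul_apply, Measure.map_apply hφ MeasurableSet.univ, Set.preimage_univ,
      Measure.restrict_apply_univ, smul_eq_mul, ENNReal.inv_mul_cancel hD0 hDtop]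
  · have hmeas : MeasurableSet (orbit x)ᶜ := (orbit_isCompact x hL).isClosed.isOpen_compl.measurableSet
    rw [Measure.smul_apply, Measure.map_apply hφ hmeas]
    have : φ ⁻¹' (orbit x)ᶜ = ∅ := by
      ext u
      simp only [Set.mem_preimage, Set.mem_compl_iff, Set.mem_empty_iff_false, iff_false, not_not]
      exact ⟨u, rfl⟩
    rw [this, measure_empty, smul_zero]
  · intro u
    rw [Measure.map_smul]
    congr 1
    ext B hB
    have hact : Measurable (act (n := n) (aElt u)) := (continuous_act _).measurable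
    rw [Measure.map_apply hact hB, Measure.map_apply hφ (hact hB), Measure.map_apply hφ hB,
      Measure.restrict_apply (hφ (hact hB)), Measure.restrict_apply (hφ hB)]
    -- translate by u
    have hpre : φ ⁻¹' (act (aElt u) ⁻¹' B) = (fun v => u + v) ⁻¹' (φ ⁻¹' B) := by
      ext v
      simp only [Set.mem_preimage, φ]
      rw [act_act, ← aElt_add, add_comm]
    have hinv : ∀ l : L, (fun v : Fin (n - 1) → ℝ => l +ᵥ v) ⁻¹' (φ ⁻¹' B) = φ ⁻¹' B := by
      intro l
      ext v
      simp only [Set.mem_preimage, φ]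
      have : act (aElt (l +ᵥ v)) x = act (aElt v) x := by
        change act (aElt ((l : Fin (n - 1) → ℝ) + v)) x = act (aElt v) x
        rw [aElt_add, ← act_act, mem_stab_orbit.mp l.2]
      rw [this]
    have hD' : IsAddFundamentalDomain L (u +ᵥ D) volume := hD.vadd_of_comm u
    rw [hpre]
    have h1 : volume ((fun v => u + v) ⁻¹' (φ ⁻¹' B) ∩ D) =
        volume ((φ ⁻¹' B) ∩ (u +ᵥ D)) := by
      have h2 : (fun v => u + v) ⁻¹' (φ ⁻¹' B) ∩ D =
          (fun v => u + v) ⁻¹' ((φ ⁻¹' B) ∩ (u +ᵥ D)) := by
        ext v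
        simp only [Set.mem_inter_iff, Set.mem_preimage]
        constructor
        · rintro ⟨h1, h2⟩
          exact ⟨h1, ⟨v, h2, rfl⟩⟩
        · rintro ⟨h1, ⟨v', h2, h3⟩⟩
          refine ⟨h1, ?_⟩
          have : v' = v := by simpa using h3
          rwa [← this]
      rw [h2, measure_preimage_add]
    rw [h1]
    have hmv : MeasurableVAdd L (Fin (n - 1) → ℝ) :=
      (inferInstance : MeasurableVAdd L.toAddSubgroup (Fin (n - 1) → ℝ))
    have hvi : VAddInvariantMeasure L (Fin (n - 1) → ℝ) volume :=
      (inferInstance : VAddInvariantMeasure L.toAddSubgroup (Fin (n - 1) → ℝ) volume)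
    exact (hD'.measure_set_eq hD (hφ hB) hinv)

end Vale.Agent.P007
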