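import Vale.Agent.Lib.P007.Fin

set_option autoImplicit false

namespace Vale.Agent.P007

open MeasureTheory Topology Filter NumberField Module
open scoped Pointwise nonZeroDivisors

variable {n : ℕ}

theorem orbit_act (u : Fin (n - 1) → ℝ) (x : X n) : orbit (act (aElt u) x) = orbit x := by
  ext y
  constructor
  · rintro ⟨v, rfl⟩
    refine ⟨u + v, ?_⟩
    change act (aElt (u + v)) x = act (aElt v) (act (aElt u) x)
    rw [act_act, ← aElt_add]
  · rintro ⟨v, rfl⟩
    refine ⟨-u + v, ?_⟩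
    change act (aElt (-u + v)) (act (aElt u) x) = act (aElt v) x
    rw [act_act, ← aElt_add, add_neg_cancel_left]

theorem det_intMap (N : Matrix (Fin n) (Fin n) ℤ) :
    (N.map (Int.castRingHom ℝ)).det = ((N.det : ℤ) : ℝ) := by
  have := (Int.castRingHom ℝ).map_det N
  rw [RingHom.mapMatrix_apply] at this
  rw [← this]
  rfl

theorem orbit_eq_of_scaled {g g' : Matrix.SpecialLinearGroup (Fin n) ℝ} {d : Fin n → ℝ}
    (hd : ∀ j, 0 < d j)
    (hlat : (Submodule.span ℤ (Set.range fun i => (g' : Matrix (Fin n) (Fin n) ℝ) i) :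
        Set (Fin n → ℝ)) = (fun (v : Fin n → ℝ) (j : Fin n) => v j * d j) ''
      (Submodule.span ℤ (Set.range fun i => (g : Matrix (Fin n) (Fin n) ℝ) i) :
        Set (Fin n → ℝ))) :
    orbit (mk g) = orbit (mk g') := by
  have h1 : ∀ i, ∃ N : Fin n → ℤ, ∀ j, (g' : Matrix (Fin n) (Fin n) ℝ) i j =
      (∑ k, (N k : ℝ) * (g : Matrix (Fin n) (Fin n) ℝ) k j) * d j := by
    intro i
    have h : (g' : Matrix (Fin n) (Fin n) ℝ) i ∈
      (Submodule.span ℤ (Set.range fun i => (g' : Matrix (Fin n) (Fin n) ℝ) i) :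
        Set (Fin n → ℝ)) := Submodule.subset_span ⟨i, rfl⟩
    rw [hlat] at h
    obtain ⟨v, hv, hvi⟩ := h
    obtain ⟨N, hN⟩ := (Submodule.mem_span_range_iff_exists_fun ℤ).mp hv
    refine ⟨N, fun j => ?_⟩
    rw [← congrFun hvi j]
    have := congrFun hN j
    simp only [Finset.sum_apply, zsmul_eq_mul] at this
    change v j * d j = _
    rw [← this]
    rfl
  have h2 : ∀ i, ∃ N : Fin n → ℤ, ∀ j, (g : Matrix (Fin n) (Fin n) ℝ) i j * d j =
      ∑ k, (N k : ℝ) * (g' : Matrix (Fin n) (Fin n) ℝ) k j := by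
    intro i
    have h : (fun j => (g : Matrix (Fin n) (Fin n) ℝ) i j * d j) ∈
        (fun (v : Fin n → ℝ) (j : Fin n) => v j * d j) ''
      (Submodule.span ℤ (Set.range fun i => (g : Matrix (Fin n) (Fin n) ℝ) i) :
        Set (Fin n → ℝ)) := ⟨_, Submodule.subset_span ⟨i, rfl⟩, rfl⟩
    rw [← hlat] at h
    obtain ⟨N, hN⟩ := (Submodule.mem_span_range_iff_exists_fun ℤ).mp h
    refine ⟨N, fun j => ?_⟩
    have := congrFun hN j
    simp only [Finset.sum_apply, zsmul_eq_mul] at this
    rw [← this]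
    rfl
  choose N hN using h1
  choose N' hN' using h2
  have hmat : (g' : Matrix (Fin n) (Fin n) ℝ) = (Matrix.of N).map (Int.castRingHom ℝ) *
      ((g : Matrix (Fin n) (Fin n) ℝ) * Matrix.diagonal d) := by
    ext i j
    rw [← mul_assoc, Matrix.mul_diagonal, Matrix.mul_apply, hN i j]
    rfl
  have hmat' : (g : Matrix (Fin n) (Fin n) ℝ) * Matrix.diagonal d =
      (Matrix.of N').map (Int.castRingHom ℝ) * (g' : Matrix (Fin n) (Fin n) ℝ) := by
    ext i j
    rw [Matrix.mul_diagonal, Matrix.mul_apply, hN' i j]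
    rfl
  have hdet : (1 : ℝ) = ((Matrix.of N).det : ℝ) * ∏ j, d j := by
    have := congrArg Matrix.det hmat
    rw [Matrix.det_mul, Matrix.det_mul, det_intMap, Matrix.det_diagonal,
      Matrix.SpecialLinearGroup.det_coe, Matrix.SpecialLinearGroup.det_coe, one_mul] at this
    exact this
  have hdet' : (∏ j, d j) = ((Matrix.of N').det : ℝ) := by
    have := congrArg Matrix.det hmat'
    rw [Matrix.det_mul, Matrix.det_mul, det_intMap, Matrix.det_diagonal,
      Matrix.SpecialLinearGroup.det_coe, Matrix.SpecialLinearGroup.det_coe, one_mul, mul_one]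
      at this
    exact this
  have hprod : ∏ j, d j = 1 := by
    have hpos : 0 < ∏ j, d j := Finset.prod_pos fun j _ => hd j
    rw [hdet'] at hdet hpos ⊢
    have h3 : (1 : ℤ) = (Matrix.of N).det * (Matrix.of N').det := by exact_mod_cast hdet
    have h4 : 0 < (Matrix.of N').det := by exact_mod_cast hpos
    have h5 : (Matrix.of N').det ∣ 1 := ⟨_, by rw [h3, mul_comm]⟩
    have h6 : (Matrix.of N').det = 1 := Int.eq_one_of_dvd_one h4.le h5
    exact_mod_cast h6
  have hlog : ∑ j, Real.log (d j) = 0 := by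
    rw [← Real.log_prod (fun j _ => (hd j).ne'), hprod, Real.log_one]
  let u : Fin (n - 1) → ℝ := fun i => Real.log (d ⟨i, lt_of_lt_of_le i.2 (Nat.sub_le n 1)⟩)
  have hu : ((aElt u : Matrix.SpecialLinearGroup (Fin n) ℝ) : Matrix (Fin n) (Fin n) ℝ) =
      Matrix.diagonal d := by
    change Matrix.diagonal _ = _
    congr 1
    funext j
    have h7 : expo u j = Real.log (d j) := expo_eq (fun j => Real.log (d j)) hlog j
    rw [h7, Real.exp_log (hd j)]
  have hfin : mk (g * aElt u) = mk g' := by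
    apply mk_eq_of_rows
    intro i
    rw [Submodule.mem_span_range_iff_exists_fun]
    refine ⟨N i, ?_⟩
    funext j
    simp only [Finset.sum_apply]
    rw [Matrix.SpecialLinearGroup.coe_mul, hu]
    have h8 := congrFun (congrFun hmat i) j
    rw [Matrix.mul_apply] at h8
    rw [h8]
    refine Finset.sum_congr rfl fun k _ => ?_
    simp
  rw [← hfin, ← act_mk, orbit_act]

variable {K : Type} [Field K] [NumberField K]

/-- The packet is finite. -/
theorem packet_finite (σ : Fin n ≃ (K →+* ℝ)) {O : Subring K} (hO : IsOrderOf O) :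
    (packet σ O).Finite := by
  classical
  obtain ⟨T, hT, hTI⟩ := finite_classes hO
  let Sf : AddSubgroup K × (Fin n → ℤˣ) → Set (Set (X n)) := fun p =>
    {S | ∃ (g : Matrix.SpecialLinearGroup (Fin n) ℝ) (d : Fin n → ℝ), (∀ j, 0 < d j) ∧
      (Submodule.span ℤ (Set.range fun i => (g : Matrix (Fin n) (Fin n) ℝ) i) :
        Set (Fin n → ℝ)) = (fun (y : K) (j : Fin n) => d j * σ j y * ((p.2 j : ℤ) : ℝ)) ''
          (p.1 : Set K) ∧ S = orbit (mk g)}
  have hsub : packet σ O ⊆ ⋃ p ∈ T ×ˢ (Set.univ : Set (Fin n → ℤˣ)), Sf p := by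
    rintro S ⟨I, w, c, g, hc, hspan, rfl⟩
    obtain ⟨A, hA, x, hx, hIA⟩ := hTI I
    let s : Fin n → ℤˣ := fun j => if 0 < σ j x then 1 else -1
    have hs : ∀ j, σ j x = |σ j x| * ((s j : ℤ) : ℝ) := by
      intro j
      have hne : σ j x ≠ 0 := by rwa [Ne, map_eq_zero]
      by_cases h : 0 < σ j x
      · simp [s, h, abs_of_pos h]
      · have h' : σ j x < 0 := lt_of_le_of_ne (not_lt.mp h) hne
        simp [s, h, abs_of_neg h']
    simp only [Set.mem_iUnion]
    refine ⟨(A, fun j => w j * s j), ⟨hA, Set.mem_univ _⟩, g, fun j => c * |σ j x|, ?_, ?_, rfl⟩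
    · intro j
      have hne : σ j x ≠ 0 := by rwa [Ne, map_eq_zero]
      exact mul_pos hc (abs_pos.mpr hne)
    · rw [hspan, hIA, Set.image_image]
      apply Set.image_congr
      intro y _
      funext j
      rw [map_mul]
      nth_rewrite 1 [hs j]
      push_cast
      ring
  refine Set.Finite.subset ?_ hsub
  refine Set.Finite.biUnion (hT.prod Set.finite_univ) ?_
  rintro ⟨A, w⟩ _
  apply Set.Subsingleton.finite
  rintro S ⟨g, d, hd, hg, rfl⟩ S' ⟨g', d', hd', hg', rfl⟩
  refine orbit_eq_of_scaled (d := fun j => d' j / d j) (fun j => div_pos (hd' j) (hd j)) ?_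
  rw [hg, hg', Set.image_image]
  apply Set.image_congr
  intro y _
  funext j
  have := (hd j).ne'
  field_simp

end Vale.Agent.P007
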