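import Vale.Agent.Lib.P007.Defs

set_option autoImplicit false

namespace Vale.Agent.P007

open MeasureTheory Matrix Topology Filter

variable {n : ℕ}

theorem mk_isOpenQuotientMap : IsOpenQuotientMap (mk (n := n)) :=
  MulAction.isOpenQuotientMap_quotientMk (Γ := Gam n) (T := Matrix.SpecialLinearGroup (Fin n) ℝ)

theorem gam_discrete : DiscreteTopology (Gam n) := by
  have hemb : IsEmbedding (Matrix.SpecialLinearGroup.map (n := Fin n) (Int.castRingHom ℝ)) :=
    Topology.IsEmbedding.specialLinearGroup_map Int.isClosedEmbedding_coe_real.isEmbedding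
  have h2 := hemb.toHomeomorph
  have h3 : DiscreteTopology (Set.range (Matrix.SpecialLinearGroup.map (n := Fin n) (Int.castRingHom ℝ))) :=
    h2.discreteTopology
  exact h3

instance instLCM : LocallyCompactSpace (Matrix (Fin n) (Fin n) ℝ) :=
  inferInstanceAs (LocallyCompactSpace (Fin n → Fin n → ℝ))

instance instSCM : SecondCountableTopology (Matrix (Fin n) (Fin n) ℝ) :=
  inferInstanceAs (SecondCountableTopology (Fin n → Fin n → ℝ))

instance instLCSL : LocallyCompactSpace (Matrix.SpecialLinearGroup (Fin n) ℝ) :=
  Matrix.SpecialLinearGroup.isClosedEmbedding_val.locallyCompactSpace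

instance instSCSL : SecondCountableTopology (Matrix.SpecialLinearGroup (Fin n) ℝ) :=
  Matrix.SpecialLinearGroup.isClosedEmbedding_val.isEmbedding.isInducing.secondCountableTopology

instance instT2SL : T2Space (Matrix.SpecialLinearGroup (Fin n) ℝ) :=
  inferInstanceAs (T2Space {A : Matrix (Fin n) (Fin n) ℝ // A.det = 1})

instance instT2X : T2Space (X n) := by
  have := gam_discrete (n := n)
  have : ProperlyDiscontinuousSMul (Gam n) (Matrix.SpecialLinearGroup (Fin n) ℝ) :=
    Subgroup.properlyDiscontinuousSMul_of_tendsto_cofinite _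
      (Subgroup.tendsto_coe_cofinite_of_discrete _ ⟨gam_discrete⟩)
  exact t2Space_of_properlyDiscontinuousSMul_of_t2Space
    (Γ := Gam n) (T := Matrix.SpecialLinearGroup (Fin n) ℝ)

instance instLCX : LocallyCompactSpace (X n) := mk_isOpenQuotientMap.locallyCompactSpace

instance instSCX : SecondCountableTopology (X n) :=
  ContinuousConstSMul.secondCountableTopology (Γ := Gam n) (T := Matrix.SpecialLinearGroup (Fin n) ℝ)

theorem continuous_mk : Continuous (mk (n := n)) := mk_isOpenQuotientMap.continuous

theorem continuous_act_prod :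
    Continuous fun p : Matrix.SpecialLinearGroup (Fin n) ℝ × X n => act p.1 p.2 := by
  have h : IsOpenQuotientMap (Prod.map (id : Matrix.SpecialLinearGroup (Fin n) ℝ → _) (mk (n := n))) :=
    IsOpenQuotientMap.id.prodMap mk_isOpenQuotientMap
  rw [h.isQuotientMap.continuous_iff]
  have : ((fun p : Matrix.SpecialLinearGroup (Fin n) ℝ × X n => act p.1 p.2) ∘ Prod.map id mk) =
      fun p : Matrix.SpecialLinearGroup (Fin n) ℝ × Matrix.SpecialLinearGroup (Fin n) ℝ => mk (p.2 * p.1) := by
    funext p
    rfl
  rw [this]
  exact continuous_mk.comp (continuous_snd.mul continuous_fst)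

theorem continuous_act (h : Matrix.SpecialLinearGroup (Fin n) ℝ) : Continuous (act (n := n) h) :=
  continuous_act_prod.comp (Continuous.prodMk continuous_const continuous_id)

theorem continuous_expo (j : Fin n) : Continuous fun u : Fin (n - 1) → ℝ => expo u j := by
  unfold expo
  split_ifs <;> fun_prop

theorem continuous_aElt : Continuous (aElt (n := n)) := by
  refine Continuous.subtype_mk ?_ _
  refine Continuous.matrix_diagonal ?_
  exact continuous_pi fun j => Real.continuous_exp.comp (continuous_expo j)

theorem continuous_orbitMap (x : X n) :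
    Continuous fun u : Fin (n - 1) → ℝ => act (aElt u) x :=
  continuous_act_prod.comp (Continuous.prodMk continuous_aElt continuous_const)

/-- An invariant probability measure charges every nonempty open set. -/
theorem IsInvProb.pos_of_isOpen {m : Measure (X n)} (hm : IsInvProb m) {U : Set (X n)}
    (hU : IsOpen U) (hne : U.Nonempty) : 0 < m U := by
  obtain ⟨hprob, hinv⟩ := hm
  rw [pos_iff_ne_zero]
  intro h0
  obtain ⟨x₀, hx₀⟩ := hne
  obtain ⟨g₀, rfl⟩ := mk_surj x₀
  -- a dense sequence
  let d := TopologicalSpace.denseSeq (Matrix.SpecialLinearGroup (Fin n) ℝ)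
  have hcov : (Set.univ : Set (X n)) ⊆ ⋃ k, act (d k) ⁻¹' U := by
    intro x _
    obtain ⟨g, rfl⟩ := mk_surj x
    -- the set of h with mk (g*h) ∈ U
    have hopen : IsOpen {h : Matrix.SpecialLinearGroup (Fin n) ℝ | mk (g * h) ∈ U} :=
      hU.preimage (continuous_mk.comp (continuous_const.mul continuous_id))
    have hnon : {h : Matrix.SpecialLinearGroup (Fin n) ℝ | mk (g * h) ∈ U}.Nonempty :=
      ⟨g⁻¹ * g₀, by simpa using hx₀⟩
    obtain ⟨k, hk⟩ := (TopologicalSpace.denseRange_denseSeq
      (Matrix.SpecialLinearGroup (Fin n) ℝ)).exists_mem_open hopen hnon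
    exact Set.mem_iUnion.mpr ⟨k, hk⟩
  have hz : m (⋃ k, act (d k) ⁻¹' U) = 0 := by
    rw [measure_iUnion_null_iff]
    intro k
    rw [← Measure.map_apply (continuous_act (d k)).measurable hU.measurableSet, hinv (d k), h0]
  have h1 : m Set.univ = 0 := measure_mono_null hcov hz
  rw [measure_univ] at h1
  exact one_ne_zero h1

end Vale.Agent.P007
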