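import Vale.Agent.Lib.P007.Arith

set_option autoImplicit false

namespace Vale.Agent.P007

open MeasureTheory Topology Filter NumberField Module
open scoped Pointwise

variable {n : ℕ}

/-- Two points of `SL_n(ℝ)` whose row lattices are comparable give the same point of `X_n`. -/
theorem mk_eq_of_rows {g h : Matrix.SpecialLinearGroup (Fin n) ℝ}
    (H : ∀ i, (h : Matrix (Fin n) (Fin n) ℝ) i ∈
      Submodule.span ℤ (Set.range fun i => (g : Matrix (Fin n) (Fin n) ℝ) i)) :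
    mk g = mk h := by
  choose N hN using fun i => (Submodule.mem_span_range_iff_exists_fun ℤ).mp (H i)
  have hmat : (h : Matrix (Fin n) (Fin n) ℝ) =
      (Matrix.of N).map (Int.castRingHom ℝ) * (g : Matrix (Fin n) (Fin n) ℝ) := by
    ext i j
    rw [Matrix.mul_apply]
    have := congrFun (hN i) j
    simp only [Finset.sum_apply, zsmul_eq_mul] at this
    rw [← this]
    rfl
  have hdet : (Matrix.of N).det = 1 := by
    have h1 := congrArg Matrix.det hmat
    rw [Matrix.det_mul, Matrix.SpecialLinearGroup.det_coe, Matrix.SpecialLinearGroup.det_coe,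
      mul_one] at h1
    have h2 : ((Matrix.of N).map (Int.castRingHom ℝ)).det = (((Matrix.of N).det : ℤ) : ℝ) := by
      have := (Int.castRingHom ℝ).map_det (Matrix.of N)
      rw [RingHom.mapMatrix_apply] at this
      rw [← this]
      rfl
    rw [h2] at h1
    exact_mod_cast h1.symm
  rw [mk_eq_mk]
  refine ⟨⟨Matrix.of N, hdet⟩, ?_⟩
  rw [eq_mul_inv_iff_mul_eq]
  apply Subtype.ext
  exact hmat.symm

theorem expo_eq (v : Fin n → ℝ) (hv : ∑ j, v j = 0) (j : Fin n) :
    expo (fun i : Fin (n - 1) => v ⟨i, lt_of_lt_of_le i.2 (Nat.sub_le n 1)⟩) j = v j := by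
  rcases n with _ | m
  · exact j.elim0
  · unfold expo
    split_ifs with h
    · rfl
    · have hj : j = Fin.last m := by
        apply Fin.ext
        have h1 := j.2
        simp only [Fin.val_last]
        omega
      rw [Fin.sum_univ_castSucc] at hv
      rw [hj]
      have : ∑ i : Fin (m + 1 - 1), v ⟨i, lt_of_lt_of_le i.2 (Nat.sub_le (m + 1) 1)⟩ =
          ∑ i : Fin m, v i.castSucc := rfl
      rw [this]
      linarith

variable {K : Type} [Field K] [NumberField K]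

/-- The vector of logarithms `(log |σ_1 x|, …, log |σ_{n-1} x|)`. -/
noncomputable def logvec (σ : Fin n ≃ (K →+* ℝ)) (x : K) : Fin (n - 1) → ℝ :=
  fun i => Real.log |σ ⟨i, lt_of_lt_of_le i.2 (Nat.sub_le n 1)⟩ x|

/-- `g` represents the lattice `c σ(I) w`. -/
def Rep (σ : Fin n ≃ (K →+* ℝ)) (g : Matrix.SpecialLinearGroup (Fin n) ℝ) (c : ℝ)
    (w : Fin n → ℤˣ) (I : Set K) : Prop :=
  (Submodule.span ℤ (Set.range fun i => (g : Matrix (Fin n) (Fin n) ℝ) i) : Set (Fin n → ℝ)) =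
    (fun (y : K) (j : Fin n) => c * σ j y * ((w j : ℤ) : ℝ)) '' I

theorem act_logvec {σ : Fin n ≃ (K →+* ℝ)} {g : Matrix.SpecialLinearGroup (Fin n) ℝ} {c : ℝ}
    {w : Fin n → ℤˣ} {I : Set K} (hrep : Rep σ g c w I) {η : K} (hη : ∀ y ∈ I, η * y ∈ I)
    (hpos : ∀ j, 0 < σ j η) (hsum : ∑ j, Real.log |σ j η| = 0) :
    act (aElt (logvec σ η)) (mk g) = mk g := by
  rw [act_mk, eq_comm]
  apply mk_eq_of_rows
  intro i
  have h1 : (g : Matrix (Fin n) (Fin n) ℝ) i ∈
      (Submodule.span ℤ (Set.range fun i => (g : Matrix (Fin n) (Fin n) ℝ) i) :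
        Set (Fin n → ℝ)) := Submodule.subset_span ⟨i, rfl⟩
  rw [hrep] at h1
  obtain ⟨y, hy, hyi⟩ := h1
  have h2 : ((g * aElt (logvec σ η) : Matrix.SpecialLinearGroup (Fin n) ℝ) :
      Matrix (Fin n) (Fin n) ℝ) i ∈
      (fun (y : K) (j : Fin n) => c * σ j y * ((w j : ℤ) : ℝ)) '' I := by
    refine ⟨η * y, hη y hy, ?_⟩
    funext j
    have h3 : ((g * aElt (logvec σ η) : Matrix.SpecialLinearGroup (Fin n) ℝ) :
      Matrix (Fin n) (Fin n) ℝ) i j =
        (g : Matrix (Fin n) (Fin n) ℝ) i j * Real.exp (expo (logvec σ η) j) := by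
      rw [Matrix.SpecialLinearGroup.coe_mul]
      change ((g : Matrix (Fin n) (Fin n) ℝ) *
        (Matrix.diagonal (fun j => Real.exp (expo (logvec σ η) j)) :
          Matrix (Fin n) (Fin n) ℝ)) i j = _
      rw [Matrix.mul_diagonal]
    rw [h3]
    have h4 : expo (logvec σ η) j = Real.log |σ j η| := expo_eq (fun j => Real.log |σ j η|) hsum j
    rw [h4, abs_of_pos (hpos j), Real.exp_log (hpos j), ← congrFun hyi j]
    simp only [map_mul]
    ring
  rw [← hrep] at h2
  exact h2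

theorem logvec_pow (σ : Fin n ≃ (K →+* ℝ)) (x : K) (k : ℕ) :
    logvec σ (x ^ k) = (k : ℝ) • logvec σ x := by
  funext i
  simp [logvec, map_pow, abs_pow, Real.log_pow]

/-- The stabiliser of an orbit of the packet spans: Dirichlet's unit theorem. -/
theorem span_stab {σ : Fin n ≃ (K →+* ℝ)} (hn : finrank ℚ K = n)
    {O : Subring K} (hO : IsOrderOf O) {g : Matrix.SpecialLinearGroup (Fin n) ℝ} {c : ℝ}
    {w : Fin n → ℤˣ} {I : Set K} (hrep : Rep σ g c w I)
    (hI : ∀ a ∈ O, ∀ y ∈ I, a * y ∈ I) :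
    Submodule.span ℝ (stab (orbit (mk g)) : Set (Fin (n - 1) → ℝ)) = ⊤ := by
  classical
  obtain ⟨k, hk, hkO⟩ := exists_pow_mem hO
  have hnpos : 0 < n := by rw [← hn]; exact finrank_pos
  by_contra hne
  have hlt : Submodule.span ℝ (stab (orbit (mk g)) : Set (Fin (n - 1) → ℝ)) < ⊤ :=
    lt_top_iff_ne_top.mpr hne
  obtain ⟨f, hf0, hfker⟩ := Submodule.exists_le_ker_of_lt_top _ hlt
  apply hf0
  -- f kills all the log vectors of units
  have hkill : ∀ ε : (𝓞 K)ˣ, f (logvec σ ((ε : 𝓞 K) : K)) = 0 := by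
    intro ε
    have hmem : logvec σ ((((ε ^ 2) ^ k : (𝓞 K)ˣ) : 𝓞 K) : K) ∈ stab (orbit (mk g)) := by
      rw [mem_stab_orbit]
      refine act_logvec hrep (fun y hy => hI _ (hkO (ε ^ 2)) y hy) ?_ (sum_log σ hn _)
      intro j
      have h1 : ((((ε ^ 2) ^ k : (𝓞 K)ˣ) : 𝓞 K) : K) = (((ε : 𝓞 K) : K) ^ k) ^ 2 := by
        push_cast
        rw [← pow_mul, ← pow_mul, mul_comm]
      rw [h1, map_pow]
      have hne0 : ((ε : 𝓞 K) : K) ≠ 0 := Units.coe_ne_zero ε
      have h2 : σ j (((ε : 𝓞 K) : K) ^ k) ≠ 0 := by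
        rw [Ne, map_eq_zero]
        exact pow_ne_zero k hne0
      positivity
    have h2 : f (logvec σ ((((ε ^ 2) ^ k : (𝓞 K)ˣ) : 𝓞 K) : K)) = 0 :=
      hfker (Submodule.subset_span hmem)
    have h3 : ((((ε ^ 2) ^ k : (𝓞 K)ˣ) : 𝓞 K) : K) = ((ε : 𝓞 K) : K) ^ (2 * k) := by
      push_cast
      rw [← pow_mul]
    rw [h3, logvec_pow, map_smul, smul_eq_mul, mul_eq_zero] at h2
    rcases h2 with h2 | h2
    · exfalso
      have : (2 * k : ℕ) = 0 := by exact_mod_cast h2
      omega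
    · exact h2
  let c' : Fin n → ℝ := fun j =>
    if h : (j : ℕ) < n - 1 then f (fun j' => if (⟨j, h⟩ : Fin (n - 1)) = j' then 1 else 0) else 0
  have hf : ∀ v : Fin n → ℝ,
      f (fun i : Fin (n - 1) => v ⟨i, lt_of_lt_of_le i.2 (Nat.sub_le n 1)⟩) = ∑ j, c' j * v j := by
    intro v
    obtain ⟨m, rfl⟩ : ∃ m, n = m + 1 := ⟨n - 1, by omega⟩
    rw [Fin.sum_univ_castSucc]
    have hlast : c' (Fin.last m) = 0 := by simp [c']
    rw [hlast, zero_mul, add_zero, LinearMap.pi_apply_eq_sum_univ f]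
    refine Finset.sum_congr rfl fun i _ => ?_
    have hcs : c' (Fin.castSucc (n := m) i) = f (fun j' => if i = j' then 1 else 0) := by
      have hi : ((Fin.castSucc (n := m) i : Fin (m + 1)) : ℕ) < m + 1 - 1 := i.2
      simp only [c']
      rw [dif_pos hi]
      rfl
    rw [hcs, smul_eq_mul, mul_comm]
    rfl
  have hconst := const_of_annihilates σ hn c' (fun ε => by
    rw [← hf]
    exact hkill ε)
  have hzero : ∀ j, c' j = 0 := by
    intro j
    rw [hconst j ⟨n - 1, by omega⟩]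
    simp [c']
  apply LinearMap.ext
  intro v
  -- extend v by zero
  have h5 := hf (fun j => if h : (j : ℕ) < n - 1 then v ⟨j, h⟩ else 0)
  have h6 : (fun i : Fin (n - 1) => (fun j : Fin n => if h : (j : ℕ) < n - 1 then v ⟨j, h⟩ else 0)
      ⟨i, lt_of_lt_of_le i.2 (Nat.sub_le n 1)⟩) = v := by
    funext i
    simp
  rw [h6] at h5
  rw [h5]
  simp [hzero]

end Vale.Agent.P007
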